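import Vale.Agent.P237.Main

/-!
A convex body lies between a polytope and its homothetic copy, so a lower bound for projection
bodies of polytopes passes to all convex bodies.
-/

namespace Vale.Agent.P237.Asym

open MeasureTheory Set Vale.Agent.P237
open scoped ENNReal RealInnerProductSpace Pointwise

variable {n : ℕ}

/-- Between `K` and `θ⁻¹ K` there is a compact intersection of finitely many halfspaces. -/
theorem exists_polytope_between {K : Set (EuclideanSpace ℝ (Fin n))} (hK : Convex ℝ K)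
    (cK : IsCompact K) (h0 : (0 : EuclideanSpace ℝ (Fin n)) ∈ interior K) {θ : ℝ} (hθ : 0 < θ)
    (hθ1 : θ < 1) :
    ∃ (N : ℕ) (u : Fin N → EuclideanSpace ℝ (Fin n)) (h : Fin N → ℝ),
      K ⊆ {x | ∀ i, ⟪u i, x⟫ ≤ h i} ∧ {x | ∀ i, ⟪u i, x⟫ ≤ h i} ⊆ θ⁻¹ • K ∧
        IsCompact {x | ∀ i, ⟪u i, x⟫ ≤ h i} ∧ (interior {x | ∀ i, ⟪u i, x⟫ ≤ h i}).Nonempty := by
  classical
  set L := θ⁻¹ • K with hL
  have cL : IsCompact L := cK.smul θ⁻¹
  have hKL : K ⊆ interior L := by
    intro x hx
    rw [hL, interior_smul₀ (inv_ne_zero hθ.ne')]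
    refine (mem_smul_set_iff_inv_smul_mem₀ (inv_ne_zero hθ.ne') _ _).mpr ?_
    rw [inv_inv]
    have := hK.combo_self_interior_mem_interior hx h0 hθ.le (by linarith : 0 < 1 - θ) (by ring)
    simpa using this
  obtain ⟨C, hC⟩ := cL.isBounded.subset_closedBall 0
  set D : ℝ := max C 0 + 1 with hD
  have hD0 : 0 < D := by rw [hD]; have := le_max_right C 0; linarith
  set S := Metric.closedBall (0 : EuclideanSpace ℝ (Fin n)) D \ interior L with hS
  have cS : IsCompact S := (isCompact_closedBall 0 D).diff isOpen_interior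
  have hsep : ∀ y : S, ∃ (a : EuclideanSpace ℝ (Fin n)) (s : ℝ),
      (∀ x ∈ K, ⟪a, x⟫ ≤ s) ∧ s < ⟪a, (y : EuclideanSpace ℝ (Fin n))⟫ := by
    rintro ⟨y, hy⟩
    obtain ⟨f, s, hfs, hsy⟩ := geometric_hahn_banach_closed_point hK cK.isClosed
      (show y ∉ K from fun h => hy.2 (hKL h))
    refine ⟨(InnerProductSpace.toDual ℝ _).symm f, s, fun x hx => ?_, ?_⟩
    · rw [InnerProductSpace.toDual_symm_apply]; exact (hfs x hx).le
    · rw [InnerProductSpace.toDual_symm_apply]; exact hsy
  choose a s has hsy using hsep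
  obtain ⟨F, hF⟩ := cS.elim_finite_subcover (fun y : S => {x | s y < ⟪a y, x⟫})
    (fun y => isOpen_lt continuous_const (continuous_const.inner continuous_id))
    fun y hy => mem_iUnion.mpr ⟨⟨y, hy⟩, hsy _⟩
  refine ⟨F.card, fun i => a (F.equivFin.symm i), fun i => s (F.equivFin.symm i),
    fun x hx i => has _ x hx, ?_⟩
  set P := {x : EuclideanSpace ℝ (Fin n) |
    ∀ i, ⟪a (F.equivFin.symm i), x⟫ ≤ s (F.equivFin.symm i)} with hP
  have hKP : K ⊆ P := fun x hx i => has _ x hx
  have hviol : ∀ z ∈ S, z ∉ P := by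
    intro z hz hzP
    obtain ⟨y, hy⟩ := mem_iUnion.mp (hF hz)
    obtain ⟨hyF, hlt⟩ := mem_iUnion.mp hy
    have := hzP (F.equivFin ⟨y, hyF⟩)
    simp only [Equiv.symm_apply_apply] at this
    linarith [show s y < ⟪a y, z⟫ from hlt]
  have hball : P ⊆ Metric.closedBall 0 D := by
    intro z hz
    by_contra hout
    rw [mem_closedBall_zero_iff, not_le] at hout
    have hz0 : 0 < ‖z‖ := hD0.trans hout
    set t := D / ‖z‖ with ht
    have ht0 : 0 ≤ t := by rw [ht]; positivity
    have hnorm : ‖t • z‖ = D := by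
      rw [norm_smul, Real.norm_eq_abs, abs_of_nonneg ht0, ht, div_mul_cancel₀ _ hz0.ne']
    have htP : t • z ∈ P := by
      intro i
      have h1 := hz i
      have h2 := hKP (interior_subset h0) i
      rw [inner_zero_right] at h2
      rw [inner_smul_right]
      rcases le_or_gt ⟪a (F.equivFin.symm i), z⟫ 0 with h3 | h3
      · exact (mul_nonpos_of_nonneg_of_nonpos ht0 h3).trans h2
      · exact (mul_le_of_le_one_left h3.le ((div_le_one hz0).mpr hout.le)).trans h1
    refine hviol _ ⟨mem_closedBall_zero_iff.mpr hnorm.le, fun hint => ?_⟩ htP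
    have := mem_closedBall_zero_iff.mp (hC (interior_subset hint))
    linarith [le_max_left C 0]
  refine ⟨fun z hz => interior_subset (by_contra fun hz' => hviol z ⟨hball hz, hz'⟩ hz), ?_,
    ⟨0, interior_mono hKP h0⟩⟩
  refine (isCompact_closedBall 0 D).of_isClosed_subset ?_ hball
  rw [hP, ofPred_forall]
  exact isClosed_iInter fun i => isClosed_le (continuous_const.inner continuous_id) continuous_const

theorem shadow_mono {K L : Set (EuclideanSpace ℝ (Fin n))} (h : K ⊆ L)
    (v : EuclideanSpace ℝ (Fin n)) : shadow K v ≤ shadow L v :=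
  measure_mono (image_mono h)

theorem shadow_smul {K : Set (EuclideanSpace ℝ (Fin n))} {θ : ℝ} (hθ : 0 ≤ θ)
    {v : EuclideanSpace ℝ (Fin n)} (hv : ‖v‖ = 1) :
    shadow (θ • K) v = ENNReal.ofReal (θ ^ (n - 1)) * shadow K v := by
  have h0 : v ≠ 0 := fun h => by rw [h] at hv; simp at hv
  have hfr : Module.finrank ℝ (ℝ ∙ v)ᗮ = n - 1 := by
    have h := (ℝ ∙ v).finrank_add_finrank_orthogonal
    rw [finrank_span_singleton h0, finrank_euclideanSpace_fin] at h
    omega
  unfold shadow
  rw [show (ℝ ∙ v)ᗮ.orthogonalProjectionOnto '' (θ • K) =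
      θ • ((ℝ ∙ v)ᗮ.orthogonalProjectionOnto '' K) from image_smul_set _ _ _,
    Measure.addHaar_smul_of_nonneg volume hθ, hfr]

theorem shadow_translate' (K : Set (EuclideanSpace ℝ (Fin n))) (a v : EuclideanSpace ℝ (Fin n)) :
    shadow ((fun x => x + a) '' K) v = shadow K v := by
  unfold shadow
  have e : (ℝ ∙ v)ᗮ.orthogonalProjectionOnto '' ((fun x => x + a) '' K) =
      (fun y => y + (ℝ ∙ v)ᗮ.orthogonalProjectionOnto a) ''
        ((ℝ ∙ v)ᗮ.orthogonalProjectionOnto '' K) := by
    rw [image_image, image_image]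
    exact image_congr fun x _ => map_add _ _ _
  rw [e, image_add_right, measure_preimage_add_right]

theorem projBody_translate (K : Set (EuclideanSpace ℝ (Fin n))) (a : EuclideanSpace ℝ (Fin n)) :
    projBody ((fun x => x + a) '' K) = projBody K := by
  simp only [projBody, shadow_translate']

/-- A lower bound for all polytopes holds for all convex bodies. -/
theorem proj_bound_of_polytopes {A B : ℝ≥0∞}
    (H : ∀ (N : ℕ) (u : Fin N → EuclideanSpace ℝ (Fin n)) (h : Fin N → ℝ),
      IsCompact {x | ∀ i, ⟪u i, x⟫ ≤ h i} → (interior {x | ∀ i, ⟪u i, x⟫ ≤ h i}).Nonempty →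
      A * volume {x | ∀ i, ⟪u i, x⟫ ≤ h i} ^ (n - 1) ≤
        B * volume (projBody {x | ∀ i, ⟪u i, x⟫ ≤ h i}))
    {K : Set (EuclideanSpace ℝ (Fin n))} (hK : Convex ℝ K) (cK : IsCompact K)
    (hint : (interior K).Nonempty) : A * volume K ^ (n - 1) ≤ B * volume (projBody K) := by
  obtain ⟨p, hp⟩ := hint
  set K₀ := (fun x => x + -p) '' K with hK₀
  have hvol : volume K₀ = volume K := by
    rw [hK₀, image_add_right, measure_preimage_add_right]
  have hproj : projBody K₀ = projBody K := projBody_translate K _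
  have hK0 : Convex ℝ K₀ := by
    simpa [hK₀, add_comm] using hK.translate (-p)
  have cK0 : IsCompact K₀ := cK.image (by fun_prop)
  have h0 : (0 : EuclideanSpace ℝ (Fin n)) ∈ interior K₀ := by
    have := (isOpenMap_add_right (-p)).image_interior_subset K ⟨p, hp, rfl⟩
    simpa [hK₀] using this
  have key : ∀ θ ∈ Ioo (0 : ℝ) 1,
      ENNReal.ofReal ((θ ^ (n - 1)) ^ n) * (A * volume K ^ (n - 1)) ≤ B * volume (projBody K) := by
    intro θ hθ
    obtain ⟨N, u, h, hKP, hPK, cP, iP⟩ := exists_polytope_between hK0 cK0 h0 hθ.1 hθ.2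
    have hsub : (θ ^ (n - 1)) • projBody {x | ∀ i, ⟪u i, x⟫ ≤ h i} ⊆ projBody K₀ := by
      rintro _ ⟨x, hx, rfl⟩ v hv
      have hs : θ • {x | ∀ i, ⟪u i, x⟫ ≤ h i} ⊆ K₀ := by
        rintro _ ⟨z, hz, rfl⟩
        have := (mem_smul_set_iff_inv_smul_mem₀ (inv_ne_zero hθ.1.ne') _ _).mp (hPK hz)
        simpa using this
      have h1 := shadow_mono hs v
      rw [shadow_smul hθ.1.le hv] at h1
      have hfin : shadow K₀ v ≠ ⊤ :=
        (cK0.image (ContinuousLinearMap.continuous _)).measure_ne_top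
      have h2 := ENNReal.toReal_mono hfin h1
      rw [ENNReal.toReal_mul, ENNReal.toReal_ofReal (pow_nonneg hθ.1.le _)] at h2
      rw [real_inner_smul_left]
      exact (mul_le_mul_of_nonneg_left (hx v hv) (pow_nonneg hθ.1.le _)).trans h2
    have h3 := measure_mono (μ := volume) hsub
    rw [Measure.addHaar_smul_of_nonneg volume (pow_nonneg hθ.1.le _), finrank_euclideanSpace_fin,
      hproj] at h3
    refine le_trans ?_ (mul_le_mul_right h3 B)
    rw [mul_left_comm B]
    refine mul_le_mul_right (le_trans ?_ (H N u h cP iP)) _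
    rw [← hvol]
    exact mul_le_mul_right (pow_le_pow_left' (measure_mono hKP) _) _
  have hc : Filter.Tendsto
      (fun θ : ℝ => ENNReal.ofReal ((θ ^ (n - 1)) ^ n) * (A * volume K ^ (n - 1)))
      (nhdsWithin 1 (Iio 1)) (nhds (1 * (A * volume K ^ (n - 1)))) := by
    refine ENNReal.Tendsto.mul_const (Filter.Tendsto.mono_left ?_ nhdsWithin_le_nhds)
      (Or.inl one_ne_zero)
    have hcont : Continuous fun θ : ℝ => ENNReal.ofReal ((θ ^ (n - 1)) ^ n) :=
      ENNReal.continuous_ofReal.comp (by fun_prop)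
    simpa using hcont.tendsto 1
  rw [one_mul] at hc
  exact le_of_tendsto hc (Filter.mem_of_superset (Ioo_mem_nhdsLT zero_lt_one) key)

end Vale.Agent.P237.Asym
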