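import Vale.Agent.P237.Facets.Gauss

/-!
The projection value of the Euclidean ball is at most `2 e ^ (n / 2)` times its volume.
-/

namespace Vale.Agent.P237.Asym

open Real

theorem petty_ball_le {n : ℕ} (hn : 2 ≤ n) :
    kappa (n - 1) ^ n ≤ 2 * Real.exp (n / 2) * kappa n ^ (n - 1) := by
  have hm : n - 1 + 1 = n := by omega
  have hn' : (2 : ℝ) ≤ n := by exact_mod_cast hn
  have h1 := kappa_sq_le (n - 1)
  rw [hm, show ((n - 1 : ℕ) : ℝ) + 2 = (n : ℝ) + 1 by
    rw [Nat.cast_sub (by omega)]; push_cast; ring] at h1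
  have h2 := Vale.Agent.P237.Facets.kappa_sq_le_stirling hn
  have hk := kappa_pos n
  set b : ℝ := ((n : ℝ) + 1) / (2 * π) with hb
  have hb0 : 0 ≤ b := by rw [hb]; positivity
  have h3 : b ^ n * kappa n ^ 2 ≤ 4 * Real.exp n := by
    calc b ^ n * kappa n ^ 2 ≤ b ^ n * (2 * π * exp 1 / n) ^ n :=
          mul_le_mul_of_nonneg_left h2 (by positivity)
      _ = (1 + 1 / (n : ℝ)) ^ n * Real.exp n := by
          rw [← mul_pow, show b * (2 * π * exp 1 / n) = (1 + 1 / (n : ℝ)) * exp 1 by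
            rw [hb]; field_simp, mul_pow, ← Real.exp_nat_mul, mul_one]
      _ ≤ 4 * Real.exp n := by
          refine mul_le_mul_of_nonneg_right ?_ (Real.exp_pos _).le
          calc (1 + 1 / (n : ℝ)) ^ n ≤ Real.exp (1 / n) ^ n :=
                pow_le_pow_left₀ (by positivity) (by linarith [Real.add_one_le_exp (1 / (n : ℝ))]) n
            _ = Real.exp 1 := by rw [← Real.exp_nat_mul]; congr 1; field_simp
            _ ≤ 4 := by linarith [Real.exp_one_lt_d9]
  refine le_of_pow_le_pow_left₀ two_ne_zero (by positivity) ?_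
  calc (kappa (n - 1) ^ n) ^ 2 = (kappa (n - 1) ^ 2) ^ n := by rw [← pow_mul, ← pow_mul, mul_comm]
    _ ≤ (b * kappa n ^ 2) ^ n := pow_le_pow_left₀ (by positivity) h1 n
    _ = b ^ n * kappa n ^ 2 * (kappa n ^ (n - 1)) ^ 2 := by
        rw [mul_pow, mul_assoc, ← pow_mul, ← pow_mul, ← pow_add]
        congr 2
        omega
    _ ≤ 4 * Real.exp n * (kappa n ^ (n - 1)) ^ 2 :=
        mul_le_mul_of_nonneg_right h3 (by positivity)
    _ = (2 * Real.exp (n / 2) * kappa n ^ (n - 1)) ^ 2 := by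
        rw [mul_pow, mul_pow, ← Real.exp_nat_mul]
        push_cast
        rw [mul_div_cancel₀ (n : ℝ) two_ne_zero]
        norm_num

end Vale.Agent.P237.Asym
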