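import Vale.Agent.P237.Facets.Zonotope

/-!
Objects of the asymptotically sharp form of Petty's inequality: the standard Gaussian measure,
the kernels used on the zonotope, the scaled symmetric hull of a finite set and the slab body.
-/

namespace Vale.Agent.P237.Asym

open MeasureTheory Matrix ProbabilityTheory
open scoped Real

/-- The standard Gaussian probability measure of `Fin n → ℝ`. -/
noncomputable def gauss (n : ℕ) : Measure (Fin n → ℝ) :=
  Measure.pi fun _ => gaussianReal 0 1

/-- The centred Gaussian density of variance `v`. -/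
noncomputable def dens (v y : ℝ) : ℝ :=
  Real.exp (-y ^ 2 / (2 * v)) / √(2 * π * v)

/-- The kernel in the direction of a facet normal, `b` its residual coefficient. -/
noncomputable def kern (T η b y : ℝ) : ℝ :=
  (dens (T - b ^ 2) y + η * dens T y) / (1 + η)

/-- A cutoff equal to one on `|t| ≤ R` and to zero on `R + 1 ≤ |t|`. -/
noncomputable def cut (R t : ℝ) : ℝ :=
  max 0 (min 1 (R + 1 - |t|))

/-- The tempered ratio of the kernel to its average over the residual variable; its average over
the residual variable is exactly one. -/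
noncomputable def ratio (T η R b y t : ℝ) : ℝ :=
  1 + (1 - η) * cut R t * (dens (T - b ^ 2) y / dens T t - 1)

/-- The reweighting of the direction `u` with residual direction `e` at the point `x`. -/
noncomputable def weight {n : ℕ} (T η R : ℝ) (u e x : Fin n → ℝ) : ℝ :=
  ratio T η R (u ⬝ᵥ e) (x ⬝ᵥ u) (x ⬝ᵥ u - u ⬝ᵥ e * (x ⬝ᵥ e))

/-- The logarithm of the kernel over the reweighting. -/
noncomputable def logGain {n : ℕ} (T η R : ℝ) (u e x : Fin n → ℝ) : ℝ :=
  Real.log (kern T η (u ⬝ᵥ e) (x ⬝ᵥ u) / weight T η R u e x)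

/-- `L` times the absolutely convex hull of the finite set `B`. -/
def hullL {n : ℕ} (L : ℝ) (B : Finset (Fin n → ℝ)) : Set (Fin n → ℝ) :=
  {x | ∃ t : (Fin n → ℝ) → ℝ, ∑ b ∈ B, |t b| ≤ L ∧ x = ∑ b ∈ B, t b • b}

/-- The Euclidean unit ball cut by the slabs of half-width `w` normal to the members of `B`. -/
def slabBody {n : ℕ} (w : ℝ) (B : Finset (Fin n → ℝ)) : Set (Fin n → ℝ) :=
  {x | x ⬝ᵥ x ≤ 1 ∧ ∀ b ∈ B, |x ⬝ᵥ b| ≤ w}

end Vale.Agent.P237.Asym
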