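import Vale.Agent.P237.Asym.Defs

/-!
A lower bound for the logarithm of the determinant of a reweighted Gram matrix of an isotropic
system: a weighted Jensen inequality in an eigenbasis and a second-order expansion.
-/

namespace Vale.Agent.P237.Asym

open Matrix Finset
open Vale.Agent.P237.Facets

variable {n N : ℕ}

lemma gram_mulVec (w : Fin N → ℝ) (u : Fin N → Fin n → ℝ) (x : Fin n → ℝ) :
    gram w u *ᵥ x = ∑ i, (w i * (u i ⬝ᵥ x)) • u i := by
  simp [Facets.gram, Matrix.sum_mulVec, Matrix.smul_mulVec, Matrix.vecMulVec_mulVec, smul_smul]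

lemma dot_gram (w : Fin N → ℝ) (u : Fin N → Fin n → ℝ) (x y : Fin n → ℝ) :
    x ⬝ᵥ gram w u *ᵥ y = ∑ i, w i * (u i ⬝ᵥ x) * (u i ⬝ᵥ y) := by
  rw [gram_mulVec, dotProduct_sum]
  refine sum_congr rfl fun i _ => ?_
  rw [dotProduct_smul, smul_eq_mul, dotProduct_comm x]
  ring

lemma gram_map (w : Fin N → ℝ) (u : Fin N → Fin n → ℝ) (A : Matrix (Fin n) (Fin n) ℝ) :
    gram w (fun i => A *ᵥ u i) = A * gram w u * Aᵀ := by
  simp only [Facets.gram, Matrix.mul_sum, Matrix.sum_mul, Matrix.mul_smul, Matrix.smul_mul,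
    Matrix.mul_vecMulVec, Matrix.vecMulVec_mul, Matrix.vecMul_transpose]

/-- An orthonormal eigenbasis of a symmetric matrix, in dot products. -/
lemma exists_eigen {M : Matrix (Fin n) (Fin n) ℝ} (hM : M.IsHermitian) :
    ∃ (μ : Fin n → ℝ) (e : Fin n → Fin n → ℝ),
      (∀ k l, e k ⬝ᵥ e l = if k = l then 1 else 0) ∧ (∀ k, M *ᵥ e k = μ k • e k) ∧
      M.det = ∏ k, μ k ∧ (∀ x y, ∑ k, (x ⬝ᵥ e k) * (y ⬝ᵥ e k) = x ⬝ᵥ y) ∧
      (∀ x : Fin n → ℝ, x = ∑ k, (x ⬝ᵥ e k) • e k) := by
  set b := hM.eigenvectorBasis with hb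
  have ip : ∀ x y : EuclideanSpace ℝ (Fin n), inner ℝ x y = x.ofLp ⬝ᵥ y.ofLp := fun x y => by
    rw [EuclideanSpace.inner_eq_star_dotProduct, dotProduct_comm]
    simp
  refine ⟨hM.eigenvalues, fun k => (b k).ofLp, fun k l => ?_, fun k => hM.mulVec_eigenvectorBasis k,
    ?_, fun x y => ?_, fun x => ?_⟩
  · rw [← ip]
    exact b.inner_eq_ite k l
  · simpa using hM.det_eq_prod_eigenvalues
  · have := b.sum_inner_mul_inner (WithLp.toLp 2 x) (WithLp.toLp 2 y)
    simp only [ip] at this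
    rw [← this]
    exact sum_congr rfl fun k _ => by rw [dotProduct_comm (b k).ofLp]
  · have := congrArg WithLp.ofLp (b.sum_repr' (WithLp.toLp 2 x))
    simp only [ip, WithLp.ofLp_sum, WithLp.ofLp_smul] at this
    refine this.symm.trans (sum_congr rfl fun k _ => ?_)
    rw [dotProduct_comm]

/-- Weighted Jensen inequality for the determinant of an isotropic system. -/
lemma logdet_exp_ge (l β : Fin N → ℝ) (p : Fin N → Fin n → ℝ) (hl : ∀ i, 0 ≤ l i)
    (hiso : gram l p = 1) :
    0 < (gram (fun i => l i * Real.exp (β i)) p).det ∧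
      ∑ i, l i * β i * (p i ⬝ᵥ p i) ≤
        Real.log (gram (fun i => l i * Real.exp (β i)) p).det := by
  obtain ⟨μ, e, hon, heig, hdet, hpars, -⟩ := exists_eigen
    (gram_posSemidef (c := fun i => l i * Real.exp (β i))
      (fun i => mul_nonneg (hl i) (Real.exp_pos _).le) p).1
  have hμ : ∀ k, μ k = ∑ i, l i * Real.exp (β i) * (p i ⬝ᵥ e k) * (p i ⬝ᵥ e k) := fun k => by
    rw [← dot_gram (fun i => l i * Real.exp (β i)), heig, dotProduct_smul, hon, if_pos rfl,
      smul_eq_mul, mul_one]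
  have h1 : ∀ k, ∑ i, l i * (p i ⬝ᵥ e k) * (p i ⬝ᵥ e k) = 1 := fun k => by
    rw [← dot_gram, hiso, Matrix.one_mulVec, hon, if_pos rfl]
  set m : Fin n → ℝ := fun k => ∑ i, l i * β i * ((p i ⬝ᵥ e k) * (p i ⬝ᵥ e k))
  have hk : ∀ k, Real.exp (m k) ≤ μ k := by
    intro k
    calc Real.exp (m k)
        = ∑ i, Real.exp (m k) * (β i - m k + 1) * (l i * (p i ⬝ᵥ e k) * (p i ⬝ᵥ e k)) := by
          have : ∀ i, Real.exp (m k) * (β i - m k + 1) * (l i * (p i ⬝ᵥ e k) * (p i ⬝ᵥ e k))
              = Real.exp (m k) * (l i * β i * ((p i ⬝ᵥ e k) * (p i ⬝ᵥ e k)))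
                + Real.exp (m k) * (1 - m k) * (l i * (p i ⬝ᵥ e k) * (p i ⬝ᵥ e k)) :=
            fun i => by ring
          rw [sum_congr rfl fun i _ => this i, sum_add_distrib, ← mul_sum, ← mul_sum, h1]
          simp only [m]
          ring
      _ ≤ ∑ i, Real.exp (β i) * (l i * (p i ⬝ᵥ e k) * (p i ⬝ᵥ e k)) := by
          refine sum_le_sum fun i _ => mul_le_mul_of_nonneg_right ?_ ?_
          · calc Real.exp (m k) * (β i - m k + 1)
                ≤ Real.exp (m k) * Real.exp (β i - m k) :=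
                  mul_le_mul_of_nonneg_left (Real.add_one_le_exp _) (Real.exp_pos _).le
              _ = Real.exp (β i) := by rw [← Real.exp_add]; ring_nf
          · rw [mul_assoc]
            exact mul_nonneg (hl i) (mul_self_nonneg _)
      _ = μ k := by rw [hμ]; exact sum_congr rfl fun i _ => by ring
  have hpos : ∀ k, 0 < μ k := fun k => (Real.exp_pos _).trans_le (hk k)
  refine ⟨hdet ▸ prod_pos fun k _ => hpos k, ?_⟩
  rw [hdet, Real.log_prod (fun k _ => (hpos k).ne')]
  calc ∑ i, l i * β i * (p i ⬝ᵥ p i) = ∑ k, m k := by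
        simp only [m, ← hpars (p _) (p _), mul_sum]
        exact sum_comm
    _ ≤ ∑ k, Real.log (μ k) :=
        sum_le_sum fun k _ => (Real.le_log_iff_exp_le (hpos k)).2 (hk k)

/-- The determinant of the reweighted system from below. -/
theorem logdet_gram_ge {n N : ℕ} (c r β : Fin N → ℝ) (u : Fin N → Fin n → ℝ) {r₀ R : ℝ}
    (hc : ∀ i, 0 ≤ c i) (hu : ∀ i, u i ⬝ᵥ u i = 1) (hiso : gram c u = 1) (hr₀ : 0 < r₀)
    (hr : ∀ i, r₀ ≤ r i ∧ r i ≤ R) :
    ∑ i, c i * (r i - 1 + r i * β i)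
      - (∑ i, ∑ j, c i * c j * (r i - 1) * (r j - 1) * (u i ⬝ᵥ u j) ^ 2) / r₀
      - R / r₀ * √(∑ i, c i * β i ^ 2)
          * √(∑ i, ∑ j, c i * c j * (r i - 1) * (r j - 1) * (u i ⬝ᵥ u j) ^ 2)
      ≤ Real.log (gram (fun i => c i * r i * Real.exp (β i)) u).det := by
  have hr' : ∀ i, 0 ≤ r i := fun i => hr₀.le.trans (hr i).1
  have hl : ∀ i, 0 ≤ c i * r i := fun i => mul_nonneg (hc i) (hr' i)
  obtain ⟨μ, e, hon, heig, hdet, hpars, hexp⟩ :=
    exists_eigen (gram_posSemidef (c := fun i => c i * r i) hl u).1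
  -- coordinates in the eigenbasis
  set q : Fin N → Fin n → ℝ := fun i k => u i ⬝ᵥ e k with hq
  have hkl : ∀ k l, ∑ i, c i * r i * q i k * q i l = if k = l then μ k else 0 := fun k l => by
    rw [← dot_gram, heig, dotProduct_smul, hon, smul_eq_mul]
    split_ifs with h <;> simp [h]
  have hkl1 : ∀ k l, ∑ i, c i * q i k * q i l = if k = l then 1 else 0 := fun k l => by
    rw [← dot_gram, hiso, Matrix.one_mulVec, hon]
  have hqq : ∀ i j, u i ⬝ᵥ u j = ∑ k, q i k * q j k := fun i j => (hpars _ _).symm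
  have hq1 : ∀ i, ∑ k, q i k * q i k = 1 := fun i => by rw [← hqq, hu]
  have hμr : ∀ k, r₀ ≤ μ k := fun k => by
    have h1 := hkl1 k k
    have h2 := hkl k k
    rw [if_pos rfl] at h1 h2
    rw [← h2]
    calc r₀ = ∑ i, r₀ * (c i * q i k * q i k) := by rw [← mul_sum, h1, mul_one]
      _ ≤ ∑ i, r i * (c i * q i k * q i k) := sum_le_sum fun i _ =>
          mul_le_mul_of_nonneg_right (hr i).1
            (by rw [mul_assoc]; exact mul_nonneg (hc i) (mul_self_nonneg _))
      _ = _ := sum_congr rfl fun i _ => by ring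
  have hμ0 : ∀ k, 0 < μ k := fun k => hr₀.trans_le (hμr k)
  have hs : ∀ k, 0 < √(μ k) := fun k => Real.sqrt_pos.2 (hμ0 k)
  set p : Fin N → Fin n → ℝ := fun i k => q i k / √(μ k) with hp
  have hpiso : gram (fun i => c i * r i) p = 1 := by
    ext k l
    simp only [Facets.gram, Matrix.sum_apply, Matrix.smul_apply, vecMulVec_apply, smul_eq_mul, p,
      Matrix.one_apply]
    calc ∑ i, c i * r i * (q i k / √(μ k) * (q i l / √(μ l)))
        = (∑ i, c i * r i * q i k * q i l) / (√(μ k) * √(μ l)) := by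
          rw [sum_div]; exact sum_congr rfl fun i _ => by ring
      _ = _ := by
          rw [hkl]
          split_ifs with h
          · subst h; rw [Real.mul_self_sqrt (hμ0 k).le, div_self (hμ0 k).ne']
          · simp
  set A : Matrix (Fin n) (Fin n) ℝ := Matrix.of fun a k => √(μ k) * e k a with hA
  have hup : ∀ i, A *ᵥ p i = u i := fun i => by
    funext a
    conv_rhs => rw [hexp (u i)]
    simp only [Matrix.mulVec, dotProduct, A, Matrix.of_apply, p, Finset.sum_apply, Pi.smul_apply,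
      smul_eq_mul]
    exact sum_congr rfl fun k _ => by
      show √(μ k) * e k a * (q i k / √(μ k)) = q i k * e k a
      field_simp [(hs k).ne']
  have hfac : ∀ w : Fin N → ℝ, (gram w u).det = A.det * A.det * (gram w p).det := fun w => by
    conv_lhs => rw [show u = fun i => A *ᵥ p i from funext fun i => (hup i).symm, gram_map,
      Matrix.det_mul, Matrix.det_mul, Matrix.det_transpose]
    ring
  obtain ⟨hpos, hjen⟩ := logdet_exp_ge (fun i => c i * r i) β p hl hpiso
  have hA2 : A.det * A.det = ∏ k, μ k := by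
    have := hfac fun i => c i * r i
    rw [hpiso, Matrix.det_one, mul_one, hdet] at this
    exact this.symm
  rw [hfac, hA2, Real.log_mul (prod_pos fun k _ => hμ0 k).ne' hpos.ne',
    Real.log_prod (fun k _ => (hμ0 k).ne')]
  -- the two second-order quantities
  set D2 := ∑ i, ∑ j, c i * c j * (r i - 1) * (r j - 1) * (u i ⬝ᵥ u j) ^ 2 with hD2
  have hD : D2 = ∑ k, (μ k - 1) ^ 2 := by
    have hd : ∀ k l, ∑ i, c i * (r i - 1) * q i k * q i l = if k = l then μ k - 1 else 0 :=
      fun k l => by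
        rw [sum_congr rfl fun i _ => (by ring : c i * (r i - 1) * q i k * q i l
          = c i * r i * q i k * q i l - c i * q i k * q i l), sum_sub_distrib, hkl, hkl1]
        split_ifs <;> ring
    calc D2 = ∑ i, ∑ j, ∑ k, ∑ l,
          (c i * (r i - 1) * q i k * q i l) * (c j * (r j - 1) * q j k * q j l) := by
          rw [hD2]
          refine sum_congr rfl fun i _ => sum_congr rfl fun j _ => ?_
          rw [hqq, sq, sum_mul_sum, mul_sum]
          refine sum_congr rfl fun k _ => ?_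
          rw [mul_sum]
          exact sum_congr rfl fun l _ => by ring
      _ = ∑ k, ∑ l, (∑ i, c i * (r i - 1) * q i k * q i l)
            * ∑ j, c j * (r j - 1) * q j k * q j l := by
          simp_rw [sum_mul_sum]
          rw [sum_congr rfl fun i _ => sum_comm, sum_comm]
          refine sum_congr rfl fun k _ => ?_
          rw [sum_congr rfl fun i _ => sum_comm, sum_comm]
      _ = ∑ k, (μ k - 1) ^ 2 := by simp [hd, sq, sum_ite_eq]
  have hlogμ : ∑ i, c i * (r i - 1) - D2 / r₀ ≤ ∑ k, Real.log (μ k) := by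
    have h1 : ∑ i, c i * (r i - 1) = ∑ k, (μ k - 1) := by
      calc ∑ i, c i * (r i - 1) = ∑ i, ∑ k, (c i * r i * q i k * q i k - c i * q i k * q i k) := by
            refine sum_congr rfl fun i _ => ?_
            calc c i * (r i - 1) = c i * (r i - 1) * ∑ k, q i k * q i k := by rw [hq1, mul_one]
              _ = _ := by rw [mul_sum]; exact sum_congr rfl fun k _ => by ring
        _ = _ := by
            rw [sum_comm]
            exact sum_congr rfl fun k _ => by rw [sum_sub_distrib, hkl, hkl1, if_pos rfl, if_pos rfl]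
    rw [h1, hD, sum_div, ← sum_sub_distrib]
    refine sum_le_sum fun k _ => ?_
    have h2 := Real.one_sub_inv_le_log_of_pos (hμ0 k)
    have h3 : (μ k - 1) ^ 2 / μ k ≤ (μ k - 1) ^ 2 / r₀ :=
      div_le_div_of_nonneg_left (sq_nonneg _) hr₀ (hμr k)
    have h4 : 1 - (μ k)⁻¹ = μ k - 1 - (μ k - 1) ^ 2 / μ k := by
      have := (hμ0 k).ne'
      field_simp
      ring
    linarith
  set d : Fin N → ℝ := fun i => ∑ k, q i k * q i k * ((μ k)⁻¹ - 1) with hd'
  have hmain : ∑ i, c i * r i * β i + ∑ i, c i * r i * β i * d i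
      ≤ Real.log (gram (fun i => c i * r i * Real.exp (β i)) p).det := by
    refine le_trans (le_of_eq ?_) hjen
    rw [← sum_add_distrib]
    refine sum_congr rfl fun i _ => ?_
    have : p i ⬝ᵥ p i = 1 + d i := by
      calc p i ⬝ᵥ p i = ∑ k, (q i k * q i k + q i k * q i k * ((μ k)⁻¹ - 1)) := by
            refine sum_congr rfl fun k _ => ?_
            simp only [p]
            rw [div_mul_div_comm, Real.mul_self_sqrt (hμ0 k).le]
            ring
        _ = 1 + d i := by rw [sum_add_distrib, hq1]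
    rw [this]; ring
  have hd2 : ∑ i, c i * r i * d i ^ 2 ≤ D2 / r₀ := by
    calc ∑ i, c i * r i * d i ^ 2
        ≤ ∑ i, c i * r i * ∑ k, q i k * q i k * ((μ k)⁻¹ - 1) ^ 2 := by
          refine sum_le_sum fun i _ => mul_le_mul_of_nonneg_left ?_ (hl i)
          refine (sum_sq_le_sum_mul_sum_of_sq_le_mul univ (f := fun k => q i k * q i k)
            (g := fun k => q i k * q i k * ((μ k)⁻¹ - 1) ^ 2) (fun k _ => mul_self_nonneg _)
            (fun k _ => mul_nonneg (mul_self_nonneg _) (sq_nonneg _)) fun k _ => le_of_eq (by ring)).trans ?_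
          rw [hq1, one_mul]
      _ = ∑ k, μ k * ((μ k)⁻¹ - 1) ^ 2 := by
          simp only [mul_sum]
          rw [sum_comm]
          refine sum_congr rfl fun k _ => ?_
          rw [← (hkl k k).trans (if_pos rfl), sum_mul]
          exact sum_congr rfl fun i _ => by ring
      _ ≤ D2 / r₀ := by
          rw [hD, sum_div]
          refine sum_le_sum fun k _ => ?_
          have := (hμ0 k).ne'
          rw [show μ k * ((μ k)⁻¹ - 1) ^ 2 = (μ k - 1) ^ 2 / μ k by field_simp; ring]
          exact div_le_div_of_nonneg_left (sq_nonneg _) hr₀ (hμr k)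
  have hcs : -(R / r₀ * √(∑ i, c i * β i ^ 2) * √D2) ≤ ∑ i, c i * r i * β i * d i := by
    rcases isEmpty_or_nonempty (Fin N) with h | ⟨⟨i0⟩⟩
    · simp
    have hR : r₀ ≤ R := (hr i0).1.trans (hr i0).2
    have hD0 : 0 ≤ D2 := hD ▸ sum_nonneg fun k _ => sq_nonneg _
    refine (abs_le.1 ?_).1
    rw [← Real.sqrt_sq_eq_abs]
    have hR0 : 0 ≤ R / r₀ := div_nonneg (hr₀.le.trans hR) hr₀.le
    have hS0 : 0 ≤ ∑ i, c i * β i ^ 2 := sum_nonneg fun i _ => mul_nonneg (hc i) (sq_nonneg _)
    rw [Real.sqrt_le_left (by positivity)]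
    calc (∑ i, c i * r i * β i * d i) ^ 2
        ≤ (∑ i, c i * r i * β i ^ 2) * ∑ i, c i * r i * d i ^ 2 :=
          sum_sq_le_sum_mul_sum_of_sq_le_mul univ (fun i _ => mul_nonneg (hl i) (sq_nonneg _))
            (fun i _ => mul_nonneg (hl i) (sq_nonneg _)) fun i _ => le_of_eq (by ring)
      _ ≤ (R * ∑ i, c i * β i ^ 2) * (D2 / r₀) := by
          refine mul_le_mul ?_ hd2 (sum_nonneg fun i _ => mul_nonneg (hl i) (sq_nonneg _))
            (mul_nonneg (hr₀.le.trans hR) hS0)
          rw [mul_sum]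
          refine sum_le_sum fun i _ => ?_
          nlinarith [(hr i).2, mul_nonneg (hc i) (sq_nonneg (β i))]
      _ = R / r₀ * ((∑ i, c i * β i ^ 2) * D2) := by ring
      _ ≤ (R / r₀) ^ 2 * ((∑ i, c i * β i ^ 2) * D2) := by
          refine mul_le_mul_of_nonneg_right ?_ (mul_nonneg hS0 hD0)
          rw [sq]
          exact le_mul_of_one_le_left hR0 ((one_le_div hr₀).2 hR)
      _ = _ := by rw [mul_pow, mul_pow, Real.sq_sqrt hS0, Real.sq_sqrt hD0]; ring
  have hsplit : ∑ i, c i * (r i - 1 + r i * β i)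
      = ∑ i, c i * (r i - 1) + ∑ i, c i * r i * β i := by
    rw [← sum_add_distrib]; exact sum_congr rfl fun i _ => by ring
  linarith

end Vale.Agent.P237.Asym
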