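import Vale.Agent.P237.Asym.Defs

/-!
P237: a lower bound on the volume of a zonotope by the Gaussian mean of a log-determinant,
through a gradient map and Jensen's inequality.
-/

namespace Vale.Agent.P237.Asym

open MeasureTheory Matrix ProbabilityTheory Vale.Agent.P237.Facets
open scoped Real ENNReal

theorem gauss_eq_withDensity (n : ℕ) : gauss n = (volume : Measure (Fin n → ℝ)).withDensity
    fun x => ENNReal.ofReal (∏ k, gaussianPDFReal 0 1 (x k)) := by
  refine (Measure.pi_eq fun s hs => ?_).trans rfl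
  have hm : MeasurableSet (Set.univ.pi s) := MeasurableSet.univ_pi hs
  have hi : Integrable (fun x : Fin n → ℝ => ∏ k, gaussianPDFReal 0 1 (x k)) :=
    Integrable.fintype_prod fun _ => integrable_gaussianPDFReal 0 1
  have hind : ∀ x : Fin n → ℝ, (Set.univ.pi s).indicator (fun y => ∏ k, gaussianPDFReal 0 1 (y k)) x =
      ∏ k, (s k).indicator (gaussianPDFReal 0 1) (x k) := by
    intro x
    by_cases h : x ∈ Set.univ.pi s
    · rw [Set.indicator_of_mem h]
      exact Finset.prod_congr rfl fun k _ =>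
        (Set.indicator_of_mem (h k (Set.mem_univ k)) (gaussianPDFReal 0 1)).symm
    · rw [Set.indicator_of_notMem h]
      simp only [Set.mem_pi, Set.mem_univ, forall_const, not_forall] at h
      obtain ⟨k, hk⟩ := h
      exact (Finset.prod_eq_zero (Finset.mem_univ k) (Set.indicator_of_notMem hk _)).symm
  rw [withDensity_apply _ hm, ← ofReal_integral_eq_lintegral_ofReal hi.restrict
    (Filter.Eventually.of_forall fun x => Finset.prod_nonneg fun k _ => gaussianPDFReal_nonneg _ _ _),
    ← integral_indicator hm]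
  simp_rw [hind]
  rw [integral_fintype_prod_volume_eq_prod (fun k => (s k).indicator (gaussianPDFReal 0 1)),
    ENNReal.ofReal_prod_of_nonneg fun k _ => integral_nonneg fun t =>
      Set.indicator_nonneg (fun t _ => gaussianPDFReal_nonneg _ _ _) t]
  exact Finset.prod_congr rfl fun k _ => by
    rw [gaussianReal_apply_eq_integral _ one_ne_zero, integral_indicator (hs k)]

theorem integrable_dot_self_gauss (n : ℕ) :
    Integrable (fun x : Fin n → ℝ => x ⬝ᵥ x) (gauss n) := by
  have h : Integrable (fun t : ℝ => t ^ 2) (gaussianReal 0 1) :=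
    (memLp_id_gaussianReal 2).integrable_sq
  simp only [dotProduct, ← pow_two, gauss]
  exact integrable_finsetSum _ fun k _ => integrable_comp_eval (μ := fun _ : Fin n => gaussianReal 0 1) (i := k) h

theorem integral_dot_self_gauss (n : ℕ) : ∫ x : Fin n → ℝ, x ⬝ᵥ x ∂gauss n = n := by
  have h : Integrable (fun t : ℝ => t ^ 2) (gaussianReal 0 1) :=
    (memLp_id_gaussianReal 2).integrable_sq
  have h1 : ∫ t, t ^ 2 ∂gaussianReal 0 1 = 1 := by
    have := variance_id_gaussianReal (μ := 0) (v := 1)
    rw [variance_eq_integral aemeasurable_id] at this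
    simpa [integral_id_gaussianReal] using this
  simp only [dotProduct, ← pow_two, gauss]
  rw [integral_finsetSum _ fun k _ => integrable_comp_eval (i := k) h]
  simp [integral_comp_eval (μ := fun _ : Fin n => gaussianReal 0 1) h.aestronglyMeasurable, h1]

/-- Jensen's inequality for the exponential, with no integrability of `exp ∘ f`. -/
theorem exp_integral_le {α : Type*} [MeasurableSpace α] {μ : Measure α} [IsProbabilityMeasure μ]
    {f : α → ℝ} (hf : Integrable f μ) :
    ENNReal.ofReal (Real.exp (∫ x, f x ∂μ)) ≤ ∫⁻ x, ENNReal.ofReal (Real.exp (f x)) ∂μ := by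
  set m := ∫ x, f x ∂μ with hm
  set g : α → ℝ := fun x => Real.exp m * (1 + (f x - m)) with hg
  have hi : Integrable g μ := ((integrable_const 1).add (hf.sub (integrable_const m))).const_mul _
  have he : ∫ x, g x ∂μ = Real.exp m := by
    rw [hg, integral_const_mul, integral_add (integrable_const 1) (hf.sub' (integrable_const m)),
      integral_sub hf (integrable_const m), ← hm]
    simp
  have hle : ∫ x, g x ∂μ ≤ (∫⁻ x, ENNReal.ofReal (g x) ∂μ).toReal := by
    rw [integral_eq_lintegral_pos_part_sub_lintegral_neg_part hi]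
    exact sub_le_self _ ENNReal.toReal_nonneg
  rw [← he]
  refine (ENNReal.ofReal_le_ofReal hle).trans (ENNReal.ofReal_toReal_le.trans ?_)
  refine lintegral_mono fun x => ENNReal.ofReal_le_ofReal ?_
  calc g x ≤ Real.exp m * Real.exp (f x - m) := mul_le_mul_of_nonneg_left
        (by linarith [Real.add_one_le_exp (f x - m)]) (Real.exp_pos _).le
    _ = Real.exp (f x) := by rw [← Real.exp_add]; congr 1; ring

/-- The linear form `x ↦ x ⬝ᵥ v`. -/
noncomputable def dotL {n : ℕ} (v : Fin n → ℝ) : (Fin n → ℝ) →L[ℝ] ℝ :=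
  ∑ k, v k • (ContinuousLinearMap.proj k : (Fin n → ℝ) →L[ℝ] ℝ)

theorem dotL_apply {n : ℕ} (v x : Fin n → ℝ) : dotL v x = x ⬝ᵥ v := by
  simp [dotL, dotProduct, mul_comm]

/-- A centred primitive of a probability density. -/
noncomputable def prim (w : ℝ → ℝ) (y : ℝ) : ℝ := (∫ t in Set.Iic y, w t) - 1 / 2

theorem hasDerivAt_prim {w : ℝ → ℝ} (hc : Continuous w) (hi : Integrable w) (y : ℝ) :
    HasDerivAt (prim w) (w y) y := by
  have e : prim w = fun y => (∫ t in (0 : ℝ)..y, w t) + ((∫ t in Set.Iic (0 : ℝ), w t) - 1 / 2) := by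
    funext y
    rw [← intervalIntegral.integral_Iic_sub_Iic hi.integrableOn hi.integrableOn, prim]
    ring
  rw [e]
  exact ((hc.integral_hasStrictDerivAt 0 y).hasDerivAt).add_const _

theorem abs_prim_le {w : ℝ → ℝ} (hi : Integrable w) (hp : ∀ y, 0 < w y) (h1 : ∫ y, w y = 1)
    (y : ℝ) : |prim w y| ≤ 1 / 2 := by
  have h0 : 0 ≤ ∫ t in Set.Iic y, w t := setIntegral_nonneg measurableSet_Iic fun t _ => (hp t).le
  have h2 : ∫ t in Set.Iic y, w t ≤ 1 :=
    h1 ▸ setIntegral_le_integral hi (Filter.Eventually.of_forall fun t => (hp t).le)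
  rw [prim, abs_le]
  constructor <;> linarith

theorem gram_form {n N : ℕ} (c : Fin N → ℝ) (u : Fin N → Fin n → ℝ) (x : Fin n → ℝ) :
    x ⬝ᵥ Facets.gram c u *ᵥ x = ∑ i, c i * (x ⬝ᵥ u i) ^ 2 := by
  simp only [Facets.gram, sum_mulVec, dotProduct_sum, smul_mulVec, dotProduct_smul,
    vecMulVec_mulVec, op_smul_eq_smul, smul_eq_mul]
  exact Finset.sum_congr rfl fun i _ => by rw [dotProduct_comm (u i) x]; ring

theorem zono_volume_ge_entropy {n N : ℕ} (c : Fin N → ℝ) (u : Fin N → Fin n → ℝ)
    (hc : ∀ i, 0 ≤ c i) (hiso : Facets.gram c u = 1) (w : Fin N → ℝ → ℝ)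
    (hwc : ∀ i, Continuous (w i)) (hwp : ∀ i y, 0 < w i y) (hwi : ∀ i, Integrable (w i))
    (hw1 : ∀ i, ∫ y, w i y = 1)
    (hlog : Integrable
      (fun x => Real.log (Facets.gram (fun i => c i * w i (x ⬝ᵥ u i)) u).det) (gauss n)) :
    ENNReal.ofReal (√(2 * Real.pi * Real.exp 1) ^ n *
        Real.exp (∫ x, Real.log (Facets.gram (fun i => c i * w i (x ⬝ᵥ u i)) u).det ∂gauss n))
      ≤ volume (zono (fun i => c i / 2) u) := by
  set M : (Fin n → ℝ) → Matrix (Fin n) (Fin n) ℝ :=
    fun x => Facets.gram (fun i => c i * w i (x ⬝ᵥ u i)) u with hM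
  set F : (Fin n → ℝ) → (Fin n → ℝ) := fun x => ∑ i, (c i * prim (w i) (dotL (u i) x)) • u i
    with hF
  have hrange : ∀ x, F x ∈ zono (fun i => c i / 2) u := by
    intro x
    refine ⟨fun i => c i * prim (w i) (dotL (u i) x), fun i _ => ?_, rfl⟩
    have h := abs_le.1 (abs_prim_le (hwi i) (hwp i) (hw1 i) (dotL (u i) x))
    constructor <;> nlinarith [hc i]
  have hsum : ∀ v : Fin n → ℝ, ∑ i, c i * (v ⬝ᵥ u i) ^ 2 = v ⬝ᵥ v := fun v => by
    rw [← gram_form, hiso, one_mulVec]
  have hex : ∀ v : Fin n → ℝ, v ≠ 0 → ∃ i, 0 < c i ∧ v ⬝ᵥ u i ≠ 0 := by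
    intro v hv
    by_contra h
    push Not at h
    refine hv (dotProduct_self_eq_zero.1 ?_)
    rw [← hsum]
    refine Finset.sum_eq_zero fun i _ => ?_
    rcases (hc i).eq_or_lt with h0 | h0
    · rw [← h0, zero_mul]
    · rw [h i h0]; ring
  have hmonoF : ∀ i, StrictMono (prim (w i)) := fun i =>
    strictMono_of_hasDerivAt_pos (hasDerivAt_prim (hwc i) (hwi i)) fun y => hwp i y
  have hinj : Function.Injective F := by
    intro x y hxy
    by_contra hne
    obtain ⟨k, hk0, hk⟩ := hex (x - y) (sub_ne_zero.2 hne)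
    have h0 : (x - y) ⬝ᵥ (F x - F y) = 0 := by rw [hxy, sub_self, dotProduct_zero]
    rw [hF] at h0
    simp only [← Finset.sum_sub_distrib, ← sub_smul, dotProduct_sum, dotProduct_smul,
      smul_eq_mul, ← mul_sub, dotL_apply] at h0
    have hterm : ∀ i, 0 ≤ c i * (prim (w i) (x ⬝ᵥ u i) - prim (w i) (y ⬝ᵥ u i)) *
        ((x - y) ⬝ᵥ u i) := by
      intro i
      rw [mul_assoc, sub_dotProduct]
      refine mul_nonneg (hc i) ?_
      rcases le_total (x ⬝ᵥ u i) (y ⬝ᵥ u i) with h | h
      · exact mul_nonneg_of_nonpos_of_nonpos (sub_nonpos.2 ((hmonoF i).monotone h))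
          (sub_nonpos.2 h)
      · exact mul_nonneg (sub_nonneg.2 ((hmonoF i).monotone h)) (sub_nonneg.2 h)
    have hz := (Finset.sum_eq_zero_iff_of_nonneg fun i _ => hterm i).1 h0 k (Finset.mem_univ k)
    rcases mul_eq_zero.1 hz with h | h
    · rcases mul_eq_zero.1 h with h' | h'
      · exact hk0.ne' h'
      · exact hk (by rw [sub_dotProduct, (hmonoF k).injective (sub_eq_zero.1 h'), sub_self])
    · exact hk h
  set F' : (Fin n → ℝ) → (Fin n → ℝ) →L[ℝ] (Fin n → ℝ) := fun x =>
    LinearMap.toContinuousLinearMap (Matrix.toLin' (M x)) with hF'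
  have hderiv : ∀ x, HasFDerivAt F (F' x) x := by
    intro x
    have h : ∀ i, HasFDerivAt (fun x => (c i * prim (w i) (dotL (u i) x)) • u i)
        ((c i • (w i (dotL (u i) x) • dotL (u i))).smulRight (u i)) x := fun i =>
      ((((hasDerivAt_prim (hwc i) (hwi i) _).comp_hasFDerivAt x (dotL (u i)).hasFDerivAt)).const_mul
        (c i)).smul_const (u i)
    refine (HasFDerivAt.fun_sum fun i _ => h i).congr_fderiv (ContinuousLinearMap.ext fun v => ?_)
    simp only [F', M, Facets.gram, _root_.sum_apply, ContinuousLinearMap.smulRight_apply,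
      Finset.sum_apply, LinearMap.coe_toContinuousLinearMap',
      Matrix.toLin'_apply, sum_mulVec, smul_mulVec, vecMulVec_mulVec, op_smul_eq_smul,
      ContinuousLinearMap.smul_apply, dotL_apply, smul_eq_mul, smul_smul]
    exact Finset.sum_congr rfl fun i _ => by rw [dotProduct_comm (u i) v]
  have hdet : ∀ x, 0 < (M x).det := by
    intro x
    have h0 : ∀ i, 0 ≤ c i * w i (x ⬝ᵥ u i) := fun i => mul_nonneg (hc i) (hwp i _).le
    refine lt_of_le_of_ne (gram_posSemidef h0 u).det_nonneg fun e => ?_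
    obtain ⟨v, hv, hv0⟩ := Matrix.exists_mulVec_eq_zero_iff.2 e.symm
    have h := gram_form (fun i => c i * w i (x ⬝ᵥ u i)) u v
    rw [hv0, dotProduct_zero] at h
    obtain ⟨k, hk0, hk⟩ := hex v hv
    have h2 := (Finset.sum_eq_zero_iff_of_nonneg fun i _ =>
      mul_nonneg (h0 i) (sq_nonneg _)).1 h.symm k (Finset.mem_univ k)
    have h3 : 0 < c k * w k (x ⬝ᵥ u k) * (v ⬝ᵥ u k) ^ 2 :=
      mul_pos (mul_pos hk0 (hwp k _)) (by positivity)
    linarith
  have hFdet : ∀ x, (F' x).det = (M x).det := fun x => by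
    simp [F', ContinuousLinearMap.det, LinearMap.det_toLin']
  set φ : (Fin n → ℝ) → ℝ := fun x => ∏ k, gaussianPDFReal 0 1 (x k) with hφ
  set K := (n : ℝ) / 2 * Real.log (2 * Real.pi) with hK
  have hφe : ∀ x, φ x = Real.exp (-(x ⬝ᵥ x) / 2 - K) := by
    intro x
    simp only [φ, gaussianPDFReal, NNReal.coe_one, mul_one, sub_zero]
    rw [Finset.prod_mul_distrib, Finset.prod_const, Finset.card_fin, ← Real.exp_sum, sub_eq_neg_add,
      Real.exp_add]
    congr 1
    · rw [hK, Real.exp_neg, show (n : ℝ) / 2 * Real.log (2 * π) = n * (Real.log (2 * π) / 2) by ring,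
        Real.exp_nat_mul, inv_pow, ← Real.log_sqrt (by positivity), Real.exp_log (by positivity)]
    · rw [dotProduct, ← Finset.sum_neg_distrib, Finset.sum_div]
      exact congrArg Real.exp (Finset.sum_congr rfl fun k _ => by ring)
  set h : (Fin n → ℝ) → ℝ := fun x => Real.log (M x).det + ((x ⬝ᵥ x) / 2 + K) with hh
  have hq := (integrable_dot_self_gauss n).div_const 2
  have : IsProbabilityMeasure (gauss n) := by unfold gauss; infer_instance
  have hq2 : Integrable (fun x => (x ⬝ᵥ x) / 2 + K) (gauss n) := hq.add (integrable_const K)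
  have hint : Integrable h (gauss n) := hlog.add hq2
  have hval : √(2 * Real.pi * Real.exp 1) ^ n * Real.exp (∫ x, Real.log (M x).det ∂gauss n) =
      Real.exp (∫ x, h x ∂gauss n) := by
    simp only [h]
    rw [integral_add hlog hq2, integral_add hq (integrable_const K),
      integral_div, integral_dot_self_gauss, Real.exp_add, mul_comm]
    congr 1
    simp only [integral_const, probReal_univ, one_smul]
    rw [hK, show (n : ℝ) / 2 + n / 2 * Real.log (2 * π) = n * ((Real.log (2 * π) + 1) / 2) by ring,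
      Real.exp_nat_mul]
    congr 1
    rw [Real.exp_half, Real.exp_add, Real.exp_log (by positivity)]
  rw [hval]
  refine (exp_integral_le hint).trans ?_
  have hMc : Continuous fun x => (M x).det :=
    Continuous.matrix_det (by simp only [M, Facets.gram, dotProduct]; fun_prop)
  have hMm : Measurable h := ((Real.measurable_log.comp hMc.measurable)).add
    ((((continuous_id.dotProduct continuous_id).measurable).div_const 2).add_const K)
  rw [gauss_eq_withDensity, lintegral_withDensity_eq_lintegral_mul _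
    (by fun_prop) (hMm.exp.ennreal_ofReal)]
  calc ∫⁻ x, ((fun x => ENNReal.ofReal (φ x)) * fun x => ENNReal.ofReal (Real.exp (h x))) x
      = ∫⁻ x in Set.univ, ENNReal.ofReal |(F' x).det| := by
        rw [setLIntegral_univ]
        refine lintegral_congr fun x => ?_
        rw [Pi.mul_apply, ← ENNReal.ofReal_mul (by rw [hφe]; positivity), hφe, ← Real.exp_add,
          hFdet, abs_of_pos (hdet x)]
        congr 1
        rw [show -(x ⬝ᵥ x) / 2 - K + h x = Real.log (M x).det by simp only [h]; ring,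
          Real.exp_log (hdet x)]
    _ = volume (F '' Set.univ) := lintegral_abs_det_fderiv_eq_addHaar_image volume MeasurableSet.univ
        (fun x _ => (hderiv x).hasFDerivWithinAt) hinj.injOn
    _ ≤ _ := measure_mono (Set.image_subset_iff.2 fun x _ => Set.mem_preimage.2 (hrange x))

end Vale.Agent.P237.Asym
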