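import Mathlib
import Vale.Agent.P237.Ball
import Vale.Agent.P237.Asym.Defs

/-!
The Euclidean unit ball cut by slabs: volume, body property and support in the directions of a
scaled hull of the slab normals.
-/

namespace Vale.Agent.P237.Asym

open MeasureTheory Matrix
open scoped Real

variable {n : ℕ}

private lemma dot_self_nonneg' (x : Fin n → ℝ) : 0 ≤ x ⬝ᵥ x :=
  Finset.sum_nonneg fun _ _ => mul_self_nonneg _

private lemma ball_eq (a : Fin n → ℝ) {r : ℝ} (hr : 0 ≤ r) :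
    {x : Fin n → ℝ | (x - a) ⬝ᵥ (x - a) ≤ r ^ 2} =
      WithLp.toLp 2 ⁻¹' Metric.closedBall (WithLp.toLp 2 a : EuclideanSpace ℝ (Fin n)) r := by
  ext x
  rw [Set.mem_preimage, Metric.mem_closedBall, EuclideanSpace.dist_eq, Set.mem_ofPred_eq,
    ← Real.sqrt_sq hr, Real.sqrt_le_sqrt_iff (sq_nonneg r), Real.sqrt_sq hr]
  simp [dotProduct, Real.dist_eq, sq]

private lemma ball_volume (hn : 1 ≤ n) (a : Fin n → ℝ) {r : ℝ} (hr : 0 ≤ r) :
    volume {x : Fin n → ℝ | (x - a) ⬝ᵥ (x - a) ≤ r ^ 2} = ENNReal.ofReal (r ^ n * kappa n) := by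
  have : Nonempty (Fin n) := ⟨⟨0, hn⟩⟩
  rw [ball_eq a hr, (PiLp.volume_preserving_toLp (Fin n)).measure_preimage
    measurableSet_closedBall.nullMeasurableSet, EuclideanSpace.volume_closedBall, Fintype.card_fin,
    ← ENNReal.ofReal_pow hr, ← ENNReal.ofReal_mul (pow_nonneg hr n)]
  rfl

/-- The coordinate unit ball has volume `kappa n`. -/
theorem unitBall_volume (hn : 1 ≤ n) :
    volume {x : Fin n → ℝ | x ⬝ᵥ x ≤ 1} = ENNReal.ofReal (kappa n) := by
  simpa using ball_volume hn (0 : Fin n → ℝ) zero_le_one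

/-- Every slab normal costs two small caps. -/
theorem slabBody_volume (hn : 1 ≤ n) {w : ℝ} (hw : 0 ≤ w) (hw1 : w ≤ 1)
    (B : Finset (Fin n → ℝ)) (hB : ∀ b ∈ B, b ⬝ᵥ b = 1) :
    ENNReal.ofReal (1 - 2 * B.card * √(1 - w ^ 2) ^ n) * volume {x : Fin n → ℝ | x ⬝ᵥ x ≤ 1}
      ≤ volume (slabBody w B) := by
  set ρ := √(1 - w ^ 2)
  have hρ : 0 ≤ ρ := Real.sqrt_nonneg _
  have hρ2 : ρ ^ 2 = 1 - w ^ 2 := Real.sq_sqrt (by nlinarith)
  let cap : (Fin n → ℝ) → Set (Fin n → ℝ) := fun c => {x | (x - c) ⬝ᵥ (x - c) ≤ ρ ^ 2}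
  have hcov : {x : Fin n → ℝ | x ⬝ᵥ x ≤ 1} ⊆
      slabBody w B ∪ ⋃ b ∈ B, (cap (w • b) ∪ cap (-(w • b))) := by
    intro x hx
    simp only [Set.mem_ofPred_eq] at hx
    by_cases h : ∀ b ∈ B, |x ⬝ᵥ b| ≤ w
    · exact Or.inl ⟨hx, h⟩
    push Not at h
    obtain ⟨b, hb, hlt⟩ := h
    refine Or.inr (Set.mem_biUnion hb ?_)
    rcases lt_abs.1 hlt with h1 | h1
    · left
      simp only [cap, Set.mem_ofPred_eq, sub_dotProduct, dotProduct_sub, smul_dotProduct,
        dotProduct_smul, smul_eq_mul, dotProduct_comm b x, hB b hb, hρ2]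
      nlinarith [mul_le_mul_of_nonneg_left h1.le hw]
    · right
      simp only [cap, Set.mem_ofPred_eq, sub_neg_eq_add, add_dotProduct, dotProduct_add,
        smul_dotProduct, dotProduct_smul, smul_eq_mul, dotProduct_comm b x, hB b hb, hρ2]
      nlinarith [mul_le_mul_of_nonneg_left h1.le hw]
  have hκ := kappa_pos n
  have hx0 : (0 : ℝ) ≤ 2 * B.card * ρ ^ n := by positivity
  rw [unitBall_volume hn, ← ENNReal.ofReal_mul' hκ.le, sub_mul, one_mul,
    ENNReal.ofReal_sub _ (mul_nonneg hx0 hκ.le), tsub_le_iff_right]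
  calc ENNReal.ofReal (kappa n) = volume {x : Fin n → ℝ | x ⬝ᵥ x ≤ 1} := (unitBall_volume hn).symm
    _ ≤ volume (slabBody w B) + volume (⋃ b ∈ B, (cap (w • b) ∪ cap (-(w • b)))) :=
        (measure_mono hcov).trans (measure_union_le _ _)
    _ ≤ volume (slabBody w B) + ∑ _b ∈ B, ENNReal.ofReal (2 * (ρ ^ n * kappa n)) := by
        refine add_le_add le_rfl ((measure_biUnion_finset_le _ _).trans
          (Finset.sum_le_sum fun b _ => (measure_union_le _ _).trans ?_))
        rw [ball_volume hn _ hρ, ball_volume hn _ hρ, two_mul,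
          ← ENNReal.ofReal_add (by positivity) (by positivity)]
    _ = _ := by
        rw [Finset.sum_const, ← ENNReal.ofReal_nsmul, nsmul_eq_mul]
        congr 2
        ring

/-- The slab body is a convex body. -/
theorem slabBody_body {w : ℝ} (hw : 0 < w) (B : Finset (Fin n → ℝ)) :
    Convex ℝ (slabBody w B) ∧ IsCompact (slabBody w B) ∧ (interior (slabBody w B)).Nonempty := by
  refine ⟨?_, ?_, ?_⟩
  · rintro x ⟨hx, hxb⟩ y ⟨hy, hyb⟩ s t hs ht hst
    refine ⟨?_, fun b hb => ?_⟩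
    · calc (s • x + t • y) ⬝ᵥ (s • x + t • y) ≤ s * (x ⬝ᵥ x) + t * (y ⬝ᵥ y) := by
            simp only [add_dotProduct, dotProduct_add, smul_dotProduct, dotProduct_smul,
              smul_eq_mul, dotProduct_comm y x]
            have h0 := dot_self_nonneg' (x - y)
            simp only [sub_dotProduct, dotProduct_sub, dotProduct_comm y x] at h0
            obtain rfl : t = 1 - s := by linarith
            nlinarith [mul_nonneg (mul_nonneg hs ht) h0]
        _ ≤ s * 1 + t * 1 := by gcongr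
        _ = 1 := by linarith
    · rw [add_dotProduct, smul_dotProduct, smul_dotProduct, smul_eq_mul, smul_eq_mul]
      calc |s * (x ⬝ᵥ b) + t * (y ⬝ᵥ b)| ≤ |s * (x ⬝ᵥ b)| + |t * (y ⬝ᵥ b)| := abs_add_le _ _
        _ ≤ s * w + t * w := by
          rw [abs_mul, abs_mul, abs_of_nonneg hs, abs_of_nonneg ht]
          gcongr
          exacts [hxb b hb, hyb b hb]
        _ = w := by rw [← add_mul, hst, one_mul]
  · have hcl : IsClosed (slabBody w B) := by
      have e : slabBody w B =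
          {x : Fin n → ℝ | x ⬝ᵥ x ≤ 1} ∩ ⋂ b ∈ B, {x | |x ⬝ᵥ b| ≤ w} := by
        ext x; simp [slabBody]
      rw [e]
      exact (isClosed_le (by fun_prop) continuous_const).inter
        (isClosed_biInter fun b _ => isClosed_le (by fun_prop) continuous_const)
    refine (isCompact_Icc (a := (-1 : Fin n → ℝ)) (b := 1)).of_isClosed_subset hcl fun x hx => ?_
    have hk : ∀ k, |x k| ≤ 1 := fun k => by
      have h := (Finset.single_le_sum (f := fun j => x j * x j) (fun j _ => mul_self_nonneg _)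
        (Finset.mem_univ k)).trans hx.1
      rw [← abs_mul_abs_self] at h
      nlinarith [abs_nonneg (x k)]
    exact ⟨fun k => (abs_le.1 (hk k)).1, fun k => (abs_le.1 (hk k)).2⟩
  · have ho : IsOpen ({x : Fin n → ℝ | x ⬝ᵥ x < 1} ∩ ⋂ b ∈ B, {x | |x ⬝ᵥ b| < w}) :=
      (isOpen_lt (by fun_prop) continuous_const).inter
        (isOpen_biInter_finset fun b _ => isOpen_lt (by fun_prop) continuous_const)
    refine ⟨0, interior_maximal ?_ ho ⟨by simp, by simp [hw]⟩⟩
    intro x hx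
    exact ⟨hx.1.le, fun b hb => (Set.mem_iInter₂.1 hx.2 b hb).le⟩

/-- Support of the slab body at a point of the scaled hull plus a short vector. -/
theorem dot_le_slab {w L : ℝ} (hw : 0 ≤ w) {B : Finset (Fin n → ℝ)} {x a ξ : Fin n → ℝ}
    (hx : x ∈ slabBody w B) (ha : a ∈ hullL L B) : x ⬝ᵥ (a + ξ) ≤ √(ξ ⬝ᵥ ξ) + L * w := by
  obtain ⟨t, ht, rfl⟩ := ha
  have h1 : x ⬝ᵥ ξ ≤ √(ξ ⬝ᵥ ξ) := by
    refine Real.le_sqrt_of_sq_le ?_
    have h := Finset.sum_mul_sq_le_sq_mul_sq Finset.univ x ξ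
    simp only [sq, dotProduct] at h ⊢
    nlinarith [hx.1, dot_self_nonneg' ξ, show x ⬝ᵥ x = ∑ i, x i * x i from rfl,
      show ξ ⬝ᵥ ξ = ∑ i, ξ i * ξ i from rfl]
  have h2 : x ⬝ᵥ ∑ b ∈ B, t b • b ≤ L * w := by
    rw [dotProduct_sum]
    refine le_trans (Finset.sum_le_sum fun b hb => ?_)
      ((Finset.sum_mul B (fun b => |t b|) w).symm.le.trans (mul_le_mul_of_nonneg_right ht hw))
    rw [dotProduct_smul, smul_eq_mul]
    exact (le_abs_self _).trans (abs_mul (t b) _ ▸ mul_le_mul_of_nonneg_left (hx.2 b hb) (abs_nonneg _))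
  rw [dotProduct_add]
  linarith

end Vale.Agent.P237.Asym
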