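import Vale.Agent.P237.Facets.Iso
import Vale.Agent.P237.Facets.Reduce
import Vale.Agent.P237.Asym.Slab
import Vale.Agent.P237.Asym.Approx
import Vale.Agent.P237.Asym.Ball

/-!
From the test body to the two forms of Petty's inequality: sharp at exponential scale for all convex
bodies, and strict for polytopes with at most exponentially many facets.
-/

namespace Vale.Agent.P237.Asym

open MeasureTheory Set Matrix Vale.Agent.P237 Vale.Agent.P237.Facets Vale.Agent.P237.Frusta
open scoped ENNReal RealInnerProductSpace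

variable {n : ℕ}

/-- The interface of the zonotope bound: a test body for every isotropic configuration. -/
def TestBody : Prop :=
  ∀ ε : ℝ, 0 < ε → ∃ n₀ : ℕ, ∀ n ≥ n₀, ∀ (N : ℕ) (c : Fin N → ℝ) (u : Fin N → Fin n → ℝ),
    (∀ i, 0 ≤ c i) → (∀ i, u i ⬝ᵥ u i = 1) → gram c u = 1 →
    ∃ (Q : Set (Fin n → ℝ)) (q : Fin N → ℝ) (v : ℝ),
      0 ≤ v ∧ v ≤ 1 ∧ Q ⊆ {x | x ⬝ᵥ x ≤ 1} ∧ MeasurableSet Q ∧
      ENNReal.ofReal (3 / 4) * volume {x : Fin n → ℝ | x ⬝ᵥ x ≤ 1} ≤ volume Q ∧
      (∀ i, 0 < q i) ∧ (∀ y ∈ Q, ∀ i, y ⬝ᵥ u i ≤ q i) ∧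
      ∑ i, c i * q i ≤ n * (√v + ε) ∧
      ENNReal.ofReal (Real.exp (n * (v / 2 - ε))) ≤ volume (zono (fun i => c i / 2) u)

theorem unitBallVolume_eq' (m : ℕ) (hm : 1 ≤ m) :
    unitBallVolume m = ENNReal.ofReal (kappa m) := by
  haveI : Nonempty (Fin m) := ⟨⟨0, hm⟩⟩
  rw [unitBallVolume, EuclideanSpace.volume_closedBall, Fintype.card_fin, ENNReal.ofReal_one,
    one_pow, one_mul]
  rfl

theorem sum_weights {N : ℕ} {c : Fin N → ℝ} {u : Fin N → Fin n → ℝ}
    (hu : ∀ i, u i ⬝ᵥ u i = 1) (hiso : gram c u = 1) : ∑ i, c i = n := by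
  have h := congrArg Matrix.trace hiso
  simp only [Facets.gram, Matrix.trace_sum, Matrix.trace_smul, Matrix.trace_one, Fintype.card_fin] at h
  rw [← h]
  refine Finset.sum_congr rfl fun i _ => ?_
  have : (vecMulVec (u i) (u i)).trace = 1 := by
    rw [← hu i]; simp [Matrix.trace, vecMulVec_apply, dotProduct]
  rw [this, smul_eq_mul, mul_one]

theorem half_add_le {x a : ℝ} (ha : 0 < a) {ε : ℝ} (hε : 0 < ε) (hε1 : ε ≤ 1) (hx : 0 ≤ x)
    (hx1 : x ≤ 1) (hax : a ≤ x + ε) : a ^ 2 / 2 - Real.log a - 2 * ε ≤ x ^ 2 / 2 - Real.log a := by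
  have : a ^ 2 ≤ (x + ε) ^ 2 := pow_le_pow_left₀ ha.le hax 2
  nlinarith

theorem half_le_sub_log {a : ℝ} (ha : 0 < a) : 1 / 2 ≤ a ^ 2 / 2 - Real.log a := by
  have h := Real.log_le_sub_one_of_pos (pow_pos ha 2)
  rw [Real.log_pow] at h
  push_cast at h
  linarith

theorem sub_log_anti {a w : ℝ} (ha : 0 < a) (haw : a ≤ w) (hw : w ≤ 1) :
    w ^ 2 / 2 - Real.log w ≤ a ^ 2 / 2 - Real.log a := by
  have hw0 : 0 < w := ha.trans_le haw
  have h := Real.log_le_sub_one_of_pos (div_pos ha hw0)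
  rw [Real.log_div ha.ne' hw0.ne'] at h
  have e : w - a ≤ (1 - a / w) := by
    rw [one_sub_div hw0.ne', le_div_iff₀ hw0]
    nlinarith
  nlinarith

theorem projBody_ne_top (K : Set (EuclideanSpace ℝ (Fin n))) : volume (projBody K) ≠ ⊤ := by
  classical
  set B : Fin n → ℝ := fun i => max (shadow K (EuclideanSpace.single i 1)).toReal
    (shadow K (-EuclideanSpace.single i 1)).toReal
  have hsub : projBody K ⊆ euclidean (Set.pi univ fun i => Icc (-B i) (B i)) := by
    intro x hx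
    refine ⟨x.ofLp, fun i _ => ⟨?_, ?_⟩, rfl⟩
    · have h := hx (-EuclideanSpace.single i 1) (by simp)
      rw [inner_neg_right, EuclideanSpace.inner_single_right] at h
      simp only [conj_trivial, one_mul] at h
      linarith [le_max_right (shadow K (EuclideanSpace.single i 1)).toReal
        (shadow K (-EuclideanSpace.single i 1)).toReal]
    · have h := hx (EuclideanSpace.single i 1) (by simp)
      rw [EuclideanSpace.inner_single_right] at h
      simp only [conj_trivial, one_mul] at h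
      exact h.trans (le_max_left _ _)
  refine ne_top_of_le_ne_top ?_ (measure_mono hsub)
  rw [volume_euclidean]
  exact (isCompact_univ_pi fun _ => isCompact_Icc).measure_ne_top

/-- One application of the isotropic inequality to a test set. -/
theorem bound_of_test {N : ℕ} {Z Q : Set (Fin n → ℝ)} {V P : ℝ≥0∞} {a z θ : ℝ} {c q : Fin N → ℝ}
    (ha : a = (∑ i, c i * q i) / n) (hz : 0 ≤ z) (hθ : 0 ≤ θ)
    (hZ : ENNReal.ofReal z ≤ volume Z) (hQ : ENNReal.ofReal θ ≤ volume Q)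
    (H : volume Z * volume Q * V ≤ ENNReal.ofReal (((∑ i, c i * q i) / n) ^ n) * P)
    {A B : ℝ} (hA : 0 ≤ A) (hB : 0 ≤ B) (hAB : A * a ^ n ≤ B * (z * θ)) (hzθ : 0 < z * θ) :
    ENNReal.ofReal A * V ≤ ENNReal.ofReal B * P := by
  have hne : ENNReal.ofReal (z * θ) ≠ 0 := by
    rw [Ne, ENNReal.ofReal_eq_zero, not_le]; exact hzθ
  refine (ENNReal.mul_le_mul_iff_right hne ENNReal.ofReal_ne_top).mp ?_
  calc ENNReal.ofReal (z * θ) * (ENNReal.ofReal A * V)
      = ENNReal.ofReal A * (ENNReal.ofReal z * ENNReal.ofReal θ * V) := by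
        rw [ENNReal.ofReal_mul hz]; ring
    _ ≤ ENNReal.ofReal A * (volume Z * volume Q * V) := by gcongr
    _ ≤ ENNReal.ofReal A * (ENNReal.ofReal (((∑ i, c i * q i) / n) ^ n) * P) := by gcongr
    _ = ENNReal.ofReal (A * a ^ n) * P := by rw [ha, ENNReal.ofReal_mul hA, mul_assoc]
    _ ≤ ENNReal.ofReal (B * (z * θ)) * P := by gcongr
    _ = ENNReal.ofReal (z * θ) * (ENNReal.ofReal B * P) := by rw [ENNReal.ofReal_mul hB]; ring

/-- Form A: Petty's inequality for every convex body, up to `exp (ε n)`. -/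
theorem petty_asymptotic (H : TestBody) : ∀ ε : ℝ, 0 < ε → ∃ n₀ : ℕ, ∀ n ≥ n₀,
    ∀ K : Set (EuclideanSpace ℝ (Fin n)), Convex ℝ K → IsCompact K → (interior K).Nonempty →
      unitBallVolume (n - 1) ^ n * volume K ^ (n - 1) ≤
        ENNReal.ofReal (Real.exp (ε * n)) * unitBallVolume n ^ (n - 2) * volume (projBody K) := by
  intro ε hε
  set δ := min (ε / 6) 1 with hδ
  have hδ0 : 0 < δ := lt_min (by linarith) one_pos
  obtain ⟨n₀, hn₀⟩ := H δ hδ0
  obtain ⟨n₁, hn₁⟩ := exists_nat_gt (4 / ε)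
  refine ⟨max (max n₀ n₁) 3, fun n hn K hK cK iK => ?_⟩
  have hn3 : 3 ≤ n := le_trans (le_max_right _ _) hn
  have hnε : 4 ≤ ε * n := by
    have h1 : (n₁ : ℝ) ≤ n := by exact_mod_cast le_trans ((le_max_right _ _).trans (le_max_left _ _)) hn
    rw [div_lt_iff₀ hε] at hn₁
    nlinarith
  refine proj_bound_of_polytopes (fun N u h cP iP => ?_) hK cK iK
  obtain ⟨m, w, k, -, -, hw, hb, hk, hvol, hproj⟩ := exists_pos_data (by omega) u h cP iP
  rw [← hvol, ← hproj]
  obtain ⟨c, v, hc, hv, hiso, hin⟩ := exists_isotropic_test (by omega) hw hb hk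
  obtain ⟨Q, q, s, hs0, hs1, -, -, hQ, hq, hQq, hsum, hZ⟩ :=
    hn₀ n (le_trans ((le_max_left _ _).trans (le_max_left _ _)) hn) m c v hc hv hiso
  have hn0 : (0 : ℝ) < n := by exact_mod_cast (by omega : 0 < n)
  set a : ℝ := (∑ i, c i * q i) / n with ha
  have hcs := sum_weights hv hiso
  have ha0 : 0 < a := by
    refine div_pos ?_ hn0
    obtain ⟨i, -, hi⟩ := Finset.exists_ne_zero_of_sum_ne_zero (hcs.trans_ne hn0.ne')
    exact Finset.sum_pos' (fun j _ => mul_nonneg (hc j) (hq j).le)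
      ⟨i, Finset.mem_univ i, mul_pos (lt_of_le_of_ne (hc i) (Ne.symm hi)) (hq i)⟩
  have hax : a ≤ √s + δ := by rw [ha, div_le_iff₀ hn0]; linarith
  rw [unitBallVolume_eq' _ (by omega), unitBallVolume_eq' _ (by omega),
    ← ENNReal.ofReal_pow (kappa_pos _).le, ← ENNReal.ofReal_pow (kappa_pos _).le,
    ← ENNReal.ofReal_mul (Real.exp_pos _).le]
  rw [unitBall_volume (by omega), ← ENNReal.ofReal_mul (by norm_num)] at hQ
  refine bound_of_test ha (Real.exp_pos _).le (mul_nonneg (by norm_num) (kappa_pos _).le) hZ hQ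
    (hin q Q hq hQq) (pow_nonneg (kappa_pos _).le _)
    (mul_nonneg (Real.exp_pos _).le (pow_nonneg (kappa_pos _).le _)) ?_
    (mul_pos (Real.exp_pos _) (mul_pos (by norm_num) (kappa_pos _)))
  have hb' := petty_ball_le (n := n) (by omega)
  have hkey : 2 * Real.exp (n / 2) * a ^ n ≤
      3 / 4 * (Real.exp (ε * n) * Real.exp (n * (s / 2 - δ))) := by
    have e1 : a ^ n = Real.exp (n * Real.log a) := by
      rw [Real.exp_nat_mul, Real.exp_log ha0]
    have h1 := half_add_le ha0 hδ0 (min_le_right _ _) (Real.sqrt_nonneg s)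
      (Real.sqrt_le_one.mpr hs1) hax
    rw [Real.sq_sqrt hs0] at h1
    have h2 := half_le_sub_log ha0
    have h3 : n * Real.log a + n / 2 + (ε * n / 2) ≤ ε * n + n * (s / 2 - δ) := by
      have h4 : 3 * δ ≤ ε / 2 := by linarith [min_le_left (ε / 6) 1]
      nlinarith
    have h5 : 2 ≤ 3 / 4 * Real.exp (ε * n / 2) := by
      nlinarith [Real.add_one_le_exp (ε * n / 2)]
    rw [e1, ← Real.exp_add]
    calc 2 * Real.exp (n / 2) * Real.exp (n * Real.log a)
        ≤ 3 / 4 * Real.exp (ε * n / 2) * (Real.exp (n / 2) * Real.exp (n * Real.log a)) := by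
          rw [mul_assoc]; exact mul_le_mul_of_nonneg_right h5 (by positivity)
      _ = 3 / 4 * Real.exp (n * Real.log a + n / 2 + ε * n / 2) := by
          rw [mul_assoc, ← Real.exp_add, ← Real.exp_add]; congr 2; ring
      _ ≤ _ := mul_le_mul_of_nonneg_left (Real.exp_le_exp.mpr h3) (by norm_num)
  have hk1 : kappa n ^ (n - 1) = kappa n ^ (n - 2) * kappa n := by
    rw [← pow_succ]; congr 1; omega
  calc kappa (n - 1) ^ n * a ^ n ≤ 2 * Real.exp (n / 2) * kappa n ^ (n - 1) * a ^ n :=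
        mul_le_mul_of_nonneg_right hb' (pow_nonneg ha0.le n)
    _ = 2 * Real.exp (n / 2) * a ^ n * (kappa n ^ (n - 2) * kappa n) := by rw [hk1]; ring
    _ ≤ 3 / 4 * (Real.exp (ε * n) * Real.exp (n * (s / 2 - δ))) * (kappa n ^ (n - 2) * kappa n) :=
        mul_le_mul_of_nonneg_right hkey (mul_nonneg (pow_nonneg (kappa_pos _).le _) (kappa_pos _).le)
    _ = _ := by ring

/-- Form B: strict inequality for polytopes with at most exponentially many facets. -/
theorem petty_facets (H : TestBody) : ∀ c₀ : ℝ, ∃ n₀ : ℕ, ∀ n ≥ n₀, ∀ N : ℕ,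
    (N : ℝ) ≤ Real.exp (c₀ * n) → ∀ (u : Fin N → EuclideanSpace ℝ (Fin n)) (h : Fin N → ℝ),
      IsCompact {x | ∀ i, ⟪u i, x⟫ ≤ h i} → (interior {x | ∀ i, ⟪u i, x⟫ ≤ h i}).Nonempty →
        StrictPetty n {x | ∀ i, ⟪u i, x⟫ ≤ h i} := by
  intro c₀
  classical
  set r : ℝ := Real.exp (-(2 * max c₀ 0 + 1)) with hr
  have hr0 : 0 < r := Real.exp_pos _
  have hr1 : r < 1 := Real.exp_lt_one_iff.mpr (by linarith [le_max_right c₀ 0])
  set w : ℝ := √(1 - r) with hw
  have hw0 : 0 < w := Real.sqrt_pos.mpr (by linarith)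
  have hwsq : w ^ 2 = 1 - r := Real.sq_sqrt (by linarith)
  have hw1 : w ≤ 1 := Real.sqrt_le_one.mpr (by linarith)
  set δ : ℝ := w ^ 2 / 2 - Real.log w - 1 / 2 with hδ
  have hδ0 : 0 < δ := by
    have h := Real.log_lt_sub_one_of_pos (pow_pos hw0 2) (by rw [hwsq]; intro e; linarith)
    rw [Real.log_pow] at h
    push_cast at h
    rw [hδ]; linarith
  set η := min (δ / 6) 1 with hη
  have hη0 : 0 < η := lt_min (by linarith) one_pos
  obtain ⟨n₀, hn₀⟩ := H η hη0
  obtain ⟨n₁, hn₁⟩ := exists_nat_gt (max (8 / δ) 14)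
  refine ⟨max (max n₀ n₁) 3, fun n hn N hN u h cP iP => ?_⟩
  have hn3 : 3 ≤ n := le_trans (le_max_right _ _) hn
  have hn1' : (n₁ : ℝ) ≤ n := by
    exact_mod_cast le_trans ((le_max_right _ _).trans (le_max_left _ _)) hn
  have hnδ : 8 < δ * n := by
    have h1 := lt_of_le_of_lt (le_max_left (8 / δ) 14) hn₁
    rw [div_lt_iff₀ hδ0] at h1
    nlinarith
  have hn14 : (14 : ℝ) < n := lt_of_lt_of_le (lt_of_le_of_lt (le_max_right _ _) hn₁) hn1'
  obtain ⟨m, w', k, -, hmN, hw', hb, hk, hvol, hproj⟩ := exists_pos_data (by omega) u h cP iP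
  obtain ⟨c, v, hc, hv, hiso, hin⟩ := exists_isotropic_test (by omega) hw' hb hk
  obtain ⟨Q, q, s, hs0, hs1, hQsub, hQm, hQ, hq, hQq, hsum, hZ⟩ :=
    hn₀ n (le_trans ((le_max_left _ _).trans (le_max_left _ _)) hn) m c v hc hv hiso
  -- cut the test body by the slabs of all normals
  set S := Finset.univ.image v with hS
  have hS1 : ∀ b ∈ S, b ⬝ᵥ b = 1 := fun b hb => by
    obtain ⟨i, -, rfl⟩ := Finset.mem_image.mp hb
    exact hv i
  set Q' := Q ∩ slabBody w S with hQ'
  set q' : Fin m → ℝ := fun i => min (q i) w with hq'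
  have hq'0 : q' ∈ pos m := fun i => lt_min (hq i) hw0
  have hQ'q : ∀ y ∈ Q', ∀ i, y ⬝ᵥ v i ≤ q' i := fun y hy i =>
    le_min (hQq y hy.1 i) ((le_abs_self _).trans (hy.2.2 _ (Finset.mem_image_of_mem v (Finset.mem_univ i))))
  have hsmall : 2 * (S.card : ℝ) * √(1 - w ^ 2) ^ n ≤ 1 / 4 := by
    have h1 : (S.card : ℝ) ≤ Real.exp (max c₀ 0 * n) := by
      have h0 : S.card ≤ N := (Finset.card_image_le.trans_eq (by simp)).trans hmN
      exact (Nat.cast_le.mpr h0).trans (hN.trans (Real.exp_le_exp.mpr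
        (mul_le_mul_of_nonneg_right (le_max_left _ _) (Nat.cast_nonneg n))))
    have h2 : √(1 - w ^ 2) ^ n = Real.exp (-(max c₀ 0 * n) - n / 2) := by
      have e : √(1 - w ^ 2) = Real.exp (-(max c₀ 0) - 1 / 2) := by
        rw [hwsq, sub_sub_cancel, Real.sqrt_eq_iff_mul_self_eq hr0.le (Real.exp_pos _).le, hr,
          ← Real.exp_add]
        congr 1; ring
      rw [e, ← Real.exp_nat_mul]; congr 1; ring
    rw [h2]
    calc 2 * (S.card : ℝ) * Real.exp (-(max c₀ 0 * n) - n / 2)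
        ≤ 2 * Real.exp (max c₀ 0 * n) * Real.exp (-(max c₀ 0 * n) - n / 2) := by gcongr
      _ = 2 * Real.exp (-((n : ℝ) / 2)) := by
          rw [mul_assoc, ← Real.exp_add]; congr 2; ring
      _ ≤ 1 / 4 := by
          have h8 : 8 ≤ Real.exp ((n : ℝ) / 2) := by linarith [Real.add_one_le_exp ((n : ℝ) / 2)]
          rw [Real.exp_neg, ← div_eq_mul_inv, div_le_iff₀ (Real.exp_pos _)]
          linarith
  have hball := unitBall_volume (n := n) (by omega)
  have hkn := kappa_pos n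
  have hQvol : ENNReal.ofReal (1 / 2 * kappa n) ≤ volume Q' := by
    set Bd := {x : Fin n → ℝ | x ⬝ᵥ x ≤ 1}
    have hfin : ∀ {A : Set (Fin n → ℝ)}, A ⊆ Bd → volume A ≠ ⊤ := fun hA =>
      ne_top_of_le_ne_top (by rw [hball]; exact ENNReal.ofReal_ne_top) (measure_mono hA)
    have hSb : slabBody w S ⊆ Bd := fun x hx => hx.1
    have hsm : MeasurableSet (slabBody w S) :=
      (slabBody_body hw0 S).2.1.isClosed.measurableSet
    have h1 := slabBody_volume (n := n) (by omega) hw0.le hw1 S hS1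
    rw [hball, ← ENNReal.ofReal_mul (by linarith)] at h1
    rw [hball, ← ENNReal.ofReal_mul (by norm_num)] at hQ
    have h2 : volume Q + volume (slabBody w S) ≤ volume Bd + volume Q' := by
      rw [hQ', ← measure_union_add_inter Q hsm]
      exact add_le_add (measure_mono (union_subset hQsub hSb)) le_rfl
    rw [hball] at h2
    have h3 : ENNReal.ofReal (kappa n) + ENNReal.ofReal (1 / 2 * kappa n) ≤
        ENNReal.ofReal (kappa n) + volume Q' := by
      refine le_trans ?_ h2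
      refine le_trans ?_ (add_le_add hQ h1)
      rw [← ENNReal.ofReal_add hkn.le (by positivity),
        ← ENNReal.ofReal_add (by positivity) (mul_nonneg (by linarith) hkn.le)]
      exact ENNReal.ofReal_le_ofReal (by nlinarith)
    exact (ENNReal.add_le_add_iff_left ENNReal.ofReal_ne_top).mp h3
  have hn0 : (0 : ℝ) < n := by linarith
  set a : ℝ := (∑ i, c i * q' i) / n with ha
  have hcs := sum_weights hv hiso
  have ha0 : 0 < a := by
    refine div_pos ?_ hn0
    obtain ⟨i, -, hi⟩ := Finset.exists_ne_zero_of_sum_ne_zero (hcs.trans_ne hn0.ne')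
    exact Finset.sum_pos' (fun j _ => mul_nonneg (hc j) (hq'0 j).le)
      ⟨i, Finset.mem_univ i, mul_pos (lt_of_le_of_ne (hc i) (Ne.symm hi)) (hq'0 i)⟩
  have hax : a ≤ √s + η := by
    rw [ha, div_le_iff₀ hn0]
    have h1 : ∑ i, c i * q' i ≤ ∑ i, c i * q i := Finset.sum_le_sum fun i _ =>
      mul_le_mul_of_nonneg_left (min_le_left _ _) (hc i)
    linarith
  have haw : a ≤ w := by
    rw [ha, div_le_iff₀ hn0, ← hcs, Finset.mul_sum]
    exact Finset.sum_le_sum fun i _ => by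
      rw [mul_comm w]; exact mul_le_mul_of_nonneg_left (min_le_right _ _) (hc i)
  set X : ℝ := 4 * Real.exp (-(δ * n / 2)) * kappa n ^ (n - 2) with hX
  have hmain : unitBallVolume (n - 1) ^ n * volume (euclidean (poly w' k)) ^ (n - 1) ≤
      ENNReal.ofReal X * volume (projBody (euclidean (poly w' k))) := by
    rw [unitBallVolume_eq' _ (by omega), ← ENNReal.ofReal_pow (kappa_pos _).le]
    refine bound_of_test ha (Real.exp_pos _).le (by positivity) hZ hQvol (hin q' Q' hq'0 hQ'q)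
      (pow_nonneg (kappa_pos _).le _) (by rw [hX]; positivity) ?_
      (mul_pos (Real.exp_pos _) (by positivity))
    have e1 : a ^ n = Real.exp (n * Real.log a) := by rw [Real.exp_nat_mul, Real.exp_log ha0]
    have h1 := half_add_le ha0 hη0 (min_le_right _ _) (Real.sqrt_nonneg s)
      (Real.sqrt_le_one.mpr hs1) hax
    rw [Real.sq_sqrt hs0] at h1
    have h2 := sub_log_anti ha0 haw hw1
    have h3 : n * Real.log a + n / 2 ≤ -(δ * n / 2) + n * (s / 2 - η) := by
      have h4 : 3 * η ≤ δ / 2 := by linarith [min_le_left (δ / 6) 1]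
      rw [hδ] at h4 ⊢
      nlinarith
    calc kappa (n - 1) ^ n * a ^ n ≤ 2 * Real.exp (n / 2) * kappa n ^ (n - 1) * a ^ n :=
          mul_le_mul_of_nonneg_right (petty_ball_le (by omega)) (pow_nonneg ha0.le n)
      _ = 2 * Real.exp (n * Real.log a + n / 2) * (kappa n ^ (n - 2) * kappa n) := by
          rw [Real.exp_add, e1, show kappa n ^ (n - 1) = kappa n ^ (n - 2) * kappa n by
            rw [← pow_succ]; congr 1; omega]
          ring
      _ ≤ 2 * Real.exp (-(δ * n / 2) + n * (s / 2 - η)) * (kappa n ^ (n - 2) * kappa n) := by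
          gcongr
      _ = _ := by rw [Real.exp_add, hX]; ring
  rw [StrictPetty, ← hvol, ← hproj]
  refine lt_of_le_of_lt hmain ?_
  have hpos : volume (projBody (euclidean (poly w' k))) ≠ 0 := by
    intro e
    rw [e, mul_zero, nonpos_iff_eq_zero] at hmain
    refine absurd hmain (mul_ne_zero (pow_ne_zero _ ?_) (pow_ne_zero _ ?_))
    · rw [unitBallVolume_eq' _ (by omega), Ne, ENNReal.ofReal_eq_zero, not_le]
      exact kappa_pos _
    · rw [volume_euclidean]
      exact fun e => (vol_pos hb hk).ne' (by rw [vol, e, ENNReal.toReal_zero])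
  have hlt : ENNReal.ofReal X < unitBallVolume n ^ (n - 2) := by
    rw [unitBallVolume_eq' _ (by omega), ← ENNReal.ofReal_pow hkn.le]
    refine (ENNReal.ofReal_lt_ofReal_iff (pow_pos hkn _)).mpr ?_
    rw [hX]
    refine mul_lt_of_lt_one_left (pow_pos hkn _) ?_
    rw [Real.exp_neg, ← div_eq_mul_inv, div_lt_one (Real.exp_pos _)]
    linarith [Real.add_one_le_exp (δ * n / 2)]
  exact ENNReal.mul_lt_mul_left hpos (projBody_ne_top _) hlt

end Vale.Agent.P237.Asym
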