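import Vale.Agent.P237.Asym.Defs

/-!
Basic facts on the standard Gaussian measure of `Fin n → ℝ`: laws of linear forms, splitting
along a unit vector and the first moments.
-/

namespace Vale.Agent.P237.Asym

open MeasureTheory Matrix ProbabilityTheory Finset
open scoped Real NNReal

instance (n : ℕ) : IsProbabilityMeasure (gauss n) := by
  unfold gauss; infer_instance

lemma continuous_dot_left {n : ℕ} (a : Fin n → ℝ) :
    Continuous fun x : Fin n → ℝ => x ⬝ᵥ a := by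
  simp only [dotProduct]; fun_prop

lemma dot_self_nonneg {n : ℕ} (a : Fin n → ℝ) : 0 ≤ a ⬝ᵥ a :=
  sum_nonneg fun _ _ => mul_self_nonneg _

lemma gauss_fourier {n : ℕ} (a : Fin n → ℝ) :
    ∫ x, Complex.exp (((x ⬝ᵥ a : ℝ) : ℂ) * Complex.I) ∂gauss n =
      Complex.exp (-((a ⬝ᵥ a : ℝ) : ℂ) / 2) := by
  simp only [gauss, dotProduct, Complex.ofReal_sum, Finset.sum_mul, Complex.exp_sum]
  rw [integral_fintype_prod_eq_prod
    (f := fun k (y : ℝ) => Complex.exp (((y * a k : ℝ) : ℂ) * Complex.I))]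
  rw [← Finset.sum_neg_distrib, Finset.sum_div, Complex.exp_sum]
  refine prod_congr rfl fun k _ => ?_
  have h := charFun_gaussianReal (μ := 0) (v := 1) (a k)
  rw [charFun_apply_real] at h
  simp only [Complex.ofReal_zero, mul_zero, zero_mul, NNReal.coe_one, Complex.ofReal_one,
    one_mul, zero_sub] at h
  push_cast at h ⊢
  rw [show -((a k : ℂ) * (a k : ℂ)) / 2 = -((a k : ℂ) ^ 2 / 2) by ring, ← h]
  congr 1
  ext y
  ring_nf

theorem gauss_map_dot {n : ℕ} (a : Fin n → ℝ) :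
    (gauss n).map (fun x => x ⬝ᵥ a) = gaussianReal 0 (a ⬝ᵥ a).toNNReal := by
  have := Measure.isProbabilityMeasure_map (μ := gauss n) (continuous_dot_left a).aemeasurable
  apply Measure.ext_of_charFun
  ext t
  rw [charFun_apply_real, integral_map (continuous_dot_left a).aemeasurable
    (by fun_prop), charFun_gaussianReal]
  have h := gauss_fourier (t • a)
  simp only [dotProduct_smul, smul_dotProduct, smul_eq_mul] at h
  have h0 : 0 ≤ a ⬝ᵥ a := dot_self_nonneg a
  simp only [Real.coe_toNNReal _ h0, Complex.ofReal_zero, mul_zero, zero_mul, zero_sub]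
  push_cast at h ⊢
  rw [h]
  congr 1
  ring

lemma continuous_split {n : ℕ} (e : Fin n → ℝ) :
    Continuous fun p : (Fin n → ℝ) × ℝ => p.1 - (p.1 ⬝ᵥ e) • e + p.2 • e := by
  simp only [dotProduct]; fun_prop

theorem gauss_split {n : ℕ} {e : Fin n → ℝ} (he : e ⬝ᵥ e = 1) :
    ((gauss n).prod (gaussianReal 0 1)).map (fun p => p.1 - (p.1 ⬝ᵥ e) • e + p.2 • e) = gauss n := by
  apply Measure.ext_of_charFunDual
  ext L
  rw [charFunDual_apply, charFunDual_apply, integral_map (continuous_split e).aemeasurable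
    (by fun_prop)]
  obtain ⟨a, hL⟩ : ∃ a : Fin n → ℝ, ∀ x, L x = x ⬝ᵥ a := by
    refine ⟨fun k => L (Pi.single k 1), fun x => ?_⟩
    conv_lhs => rw [pi_eq_sum_univ' x]
    simp [dotProduct]
  have hsplit : ∀ p : (Fin n → ℝ) × ℝ,
      Complex.exp (((p.1 - (p.1 ⬝ᵥ e) • e + p.2 • e) ⬝ᵥ a : ℝ) * Complex.I) =
        Complex.exp (((p.1 ⬝ᵥ (a - (e ⬝ᵥ a) • e) : ℝ) : ℂ) * Complex.I) *
          Complex.exp (((p.2 * (e ⬝ᵥ a) : ℝ) : ℂ) * Complex.I) := fun p => by
    rw [← Complex.exp_add, ← add_mul, ← Complex.ofReal_add]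
    congr 3
    simp only [add_dotProduct, sub_dotProduct, smul_dotProduct, dotProduct_sub, dotProduct_smul,
      smul_eq_mul]
    ring
  simp only [hL, hsplit]
  rw [integral_prod_mul (f := fun x : Fin n → ℝ =>
      Complex.exp (((x ⬝ᵥ (a - (e ⬝ᵥ a) • e) : ℝ) : ℂ) * Complex.I))
    (g := fun z : ℝ => Complex.exp (((z * (e ⬝ᵥ a) : ℝ) : ℂ) * Complex.I)), gauss_fourier,
    gauss_fourier]
  have h := charFun_gaussianReal (μ := 0) (v := 1) (e ⬝ᵥ a)
  rw [charFun_apply_real] at h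
  simp only [Complex.ofReal_mul, mul_comm _ ((e ⬝ᵥ a : ℝ) : ℂ)] at h ⊢
  rw [h, ← Complex.exp_add]
  congr 1
  simp only [sub_dotProduct, dotProduct_sub, dotProduct_smul, smul_dotProduct, smul_eq_mul, he,
    dotProduct_comm a e]
  push_cast
  ring

/-- Fubini along a unit vector. -/
lemma gauss_integral_split {n : ℕ} {e : Fin n → ℝ} (he : e ⬝ᵥ e = 1) {h : (Fin n → ℝ) → ℝ}
    (hh : Integrable h (gauss n)) :
    Integrable (fun p : (Fin n → ℝ) × ℝ => h (p.1 - (p.1 ⬝ᵥ e) • e + p.2 • e))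
        ((gauss n).prod (gaussianReal 0 1)) ∧
      ∫ x, h x ∂gauss n =
        ∫ x, ∫ z, h (x - (x ⬝ᵥ e) • e + z • e) ∂gaussianReal 0 1 ∂gauss n := by
  rw [← gauss_split he] at hh
  have hi : Integrable (fun p : (Fin n → ℝ) × ℝ => h (p.1 - (p.1 ⬝ᵥ e) • e + p.2 • e))
      ((gauss n).prod (gaussianReal 0 1)) :=
    (integrable_map_measure hh.1 (continuous_split e).aemeasurable).1 hh
  refine ⟨hi, ?_⟩
  conv_lhs => rw [← gauss_split he]
  rw [integral_map (continuous_split e).aemeasurable hh.1]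
  exact integral_prod _ hi

lemma integrable_pow_gaussianReal (v : ℝ≥0) (k : ℕ) :
    Integrable (fun y : ℝ => y ^ k) (gaussianReal 0 v) := by
  refine ((memLp_id_gaussianReal (μ := 0) (v := v) k).integrable_norm_pow').mono'
    (by fun_prop) (Filter.Eventually.of_forall fun y => ?_)
  simp

lemma integrable_dot_pow {n : ℕ} (a : Fin n → ℝ) (k : ℕ) :
    Integrable (fun x : Fin n → ℝ => (x ⬝ᵥ a) ^ k) (gauss n) := by
  have h := integrable_pow_gaussianReal (a ⬝ᵥ a).toNNReal k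
  rw [← gauss_map_dot] at h
  exact (integrable_map_measure h.1 (continuous_dot_left a).aemeasurable).1 h

lemma integral_dot_pow {n : ℕ} (a : Fin n → ℝ) (k : ℕ) :
    ∫ x, (x ⬝ᵥ a) ^ k ∂gauss n = ∫ y, y ^ k ∂gaussianReal 0 (a ⬝ᵥ a).toNNReal := by
  rw [← gauss_map_dot, integral_map (continuous_dot_left a).aemeasurable (by fun_prop)]

lemma integral_sq_gaussianReal (v : ℝ≥0) : ∫ y, y ^ 2 ∂gaussianReal 0 v = v := by
  have h := variance_fun_id_gaussianReal (μ := 0) (v := v)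
  rw [variance_eq_integral (by fun_prop)] at h
  simpa using h

lemma integral_dot_sq {n : ℕ} (a : Fin n → ℝ) : ∫ x, (x ⬝ᵥ a) ^ 2 ∂gauss n = a ⬝ᵥ a := by
  rw [integral_dot_pow, integral_sq_gaussianReal,
    Real.coe_toNNReal _ (dot_self_nonneg a)]

lemma integrable_dot_exp {n : ℕ} (a : Fin n → ℝ) (t : ℝ) :
    Integrable (fun x : Fin n → ℝ => Real.exp (t * (x ⬝ᵥ a))) (gauss n) := by
  have h := integrable_exp_mul_gaussianReal (μ := 0) (v := (a ⬝ᵥ a).toNNReal) t
  rw [← gauss_map_dot] at h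
  exact (integrable_map_measure h.1 (continuous_dot_left a).aemeasurable).1 h

lemma integral_dot_exp {n : ℕ} (a : Fin n → ℝ) (t : ℝ) :
    ∫ x, Real.exp (t * (x ⬝ᵥ a)) ∂gauss n = Real.exp ((a ⬝ᵥ a) * t ^ 2 / 2) := by
  have h := mgf_gaussianReal (gauss_map_dot a) t
  rw [mgf] at h
  rw [h, Real.coe_toNNReal _ (dot_self_nonneg a), zero_mul, zero_add]

end Vale.Agent.P237.Asym
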