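import Vale.Agent.P237.Asym.GaussBasic

/-!
The kernel used on the zonotope: exact mean, gain and pair correlation of the Gaussian reweighting.
-/

namespace Vale.Agent.P237.Asym

open MeasureTheory Matrix ProbabilityTheory Real
open scoped Real

lemma dens_pos {v : ℝ} (hv : 0 < v) (y : ℝ) : 0 < dens v y :=
  div_pos (exp_pos _) (sqrt_pos.2 (by positivity))

lemma dens_le {v : ℝ} (hv : 0 < v) (y : ℝ) : dens v y ≤ 1 / √(2 * π * v) := by
  refine div_le_div_of_nonneg_right (exp_le_one_iff.2 ?_) (sqrt_nonneg _)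
  exact div_nonpos_of_nonpos_of_nonneg (neg_nonpos.2 (sq_nonneg y)) (by positivity)

lemma log_dens {v : ℝ} (hv : 0 < v) (y : ℝ) :
    Real.log (dens v y) = -y ^ 2 / (2 * v) - Real.log (2 * π * v) / 2 := by
  rw [dens, Real.log_div (exp_pos _).ne' (sqrt_pos.2 (by positivity)).ne', Real.log_exp,
    Real.log_sqrt (by positivity)]

lemma continuous_dens (v : ℝ) : Continuous (dens v) := by
  unfold dens; fun_prop

/-- Gaussian convolution. -/
lemma conv_dens {T b : ℝ} (hT : 0 < T) (hs : 0 < T - b ^ 2) (t : ℝ) :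
    ∫ z, dens (T - b ^ 2) (t + b * z) ∂gaussianReal 0 1 = dens T t := by
  set s := T - b ^ 2 with hsdef
  rw [integral_gaussianReal_eq_integral_smul one_ne_zero]
  have h : ∀ z : ℝ, gaussianPDFReal 0 1 z • dens s (t + b * z) =
      dens T t * (√T / √(2 * π * s)) * exp (-(T / (2 * s)) * (z + b * t / T) ^ 2) := fun z => by
    simp only [gaussianPDFReal, dens, smul_eq_mul, NNReal.coe_one, sub_zero, mul_one]
    have e : -z ^ 2 / 2 + -(t + b * z) ^ 2 / (2 * s) =
        -t ^ 2 / (2 * T) + -(T / (2 * s)) * (z + b * t / T) ^ 2 := by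
      rw [show T = s + b ^ 2 by rw [hsdef]; ring] at hT ⊢
      field_simp
      ring
    have e' := congrArg Real.exp e
    rw [exp_add, exp_add] at e'
    calc (√(2 * π))⁻¹ * exp (-z ^ 2 / 2) * (exp (-(t + b * z) ^ 2 / (2 * s)) / √(2 * π * s))
        = (√(2 * π))⁻¹ / √(2 * π * s) *
          (exp (-z ^ 2 / 2) * exp (-(t + b * z) ^ 2 / (2 * s))) := by ring
      _ = _ := by
          rw [e', Real.sqrt_mul (by positivity : (0 : ℝ) ≤ 2 * π) T]
          field_simp
  simp_rw [h]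
  rw [integral_const_mul, integral_add_right_eq_self
    (fun z : ℝ => exp (-(T / (2 * s)) * z ^ 2)), integral_gaussian,
    show π / (T / (2 * s)) = 2 * π * s / T by field_simp, Real.sqrt_div (by positivity)]
  have : 0 < √(2 * π * s) := sqrt_pos.2 (by positivity)
  have : 0 < √T := sqrt_pos.2 hT
  field_simp

lemma cut_mem (R t : ℝ) : 0 ≤ cut R t ∧ cut R t ≤ 1 :=
  ⟨le_max_left _ _, max_le zero_le_one (min_le_left _ _)⟩

lemma continuous_cut (R : ℝ) : Continuous (cut R) := by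
  unfold cut; fun_prop

lemma cut_eq_zero {R t : ℝ} (h : R + 1 ≤ |t|) : cut R t = 0 :=
  max_eq_left ((min_le_right _ _).trans (by linarith))

lemma cut_lip (R t t' : ℝ) : |cut R t - cut R t'| ≤ |t - t'| := by
  refine ((abs_max_sub_max_le_max _ _ _ _).trans ?_)
  simp only [sub_self, abs_zero, abs_nonneg, max_eq_right]
  refine ((abs_min_sub_min_le_max _ _ _ _).trans ?_)
  simp only [sub_self, abs_zero, abs_nonneg, max_eq_right, sub_sub_sub_cancel_left]
  exact (abs_abs_sub_abs_le_abs_sub t' t).trans_eq (abs_sub_comm _ _)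

lemma one_sub_cut_le {R t : ℝ} (hR : 0 < R) : 1 - cut R t ≤ t ^ 2 / R ^ 2 := by
  rcases le_or_gt |t| R with h | h
  · have : cut R t = 1 := by
      rw [cut, min_eq_left (by linarith), max_eq_right zero_le_one]
    rw [this, sub_self]
    positivity
  · have : 1 ≤ t ^ 2 / R ^ 2 := (one_le_div (by positivity)).2 (by
      rw [← sq_abs t]; exact pow_le_pow_left₀ hR.le h.le 2)
    linarith [(cut_mem R t).1]

/-- A bound for the kernel quotient on the support of the cutoff. -/
noncomputable def quotBound (T R : ℝ) : ℝ := √(T / (T - 1)) * exp ((R + 1) ^ 2 / (2 * T))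

section Ratio

variable {T η R b : ℝ}

lemma one_le_quotBound (hT : 1 < T) : 1 ≤ quotBound T R :=
  one_le_mul_of_one_le_of_one_le
    (one_le_sqrt.2 ((one_le_div (by linarith)).2 (by linarith))) (one_le_exp (by positivity))

lemma quot_le (hT : 1 < T) (hb : b ^ 2 ≤ 1) {t : ℝ} (ht : |t| ≤ R + 1) (y : ℝ) :
    dens (T - b ^ 2) y / dens T t ≤ quotBound T R := by
  have hT0 : 0 < T := by linarith
  have hs : 0 < T - b ^ 2 := by linarith
  calc dens (T - b ^ 2) y / dens T t
      ≤ 1 / √(2 * π * (T - b ^ 2)) / dens T t :=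
        div_le_div_of_nonneg_right (dens_le hs _) (dens_pos hT0 t).le
    _ = √(T / (T - b ^ 2)) * exp (t ^ 2 / (2 * T)) := by
        have : 0 < √(2 * π) := sqrt_pos.2 (by positivity)
        have : 0 < √(T - b ^ 2) := sqrt_pos.2 hs
        rw [dens, neg_div, exp_neg, Real.sqrt_mul (by positivity : (0 : ℝ) ≤ 2 * π),
          Real.sqrt_mul (by positivity : (0 : ℝ) ≤ 2 * π), Real.sqrt_div hT0.le]
        field_simp
    _ ≤ quotBound T R := by
        have h2 : t ^ 2 ≤ (R + 1) ^ 2 := sq_le_sq.2 (ht.trans (le_abs_self _))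
        refine mul_le_mul (Real.sqrt_le_sqrt ?_) (exp_le_exp.2 ?_) (exp_pos _).le (sqrt_nonneg _)
        · exact div_le_div_of_nonneg_left hT0.le (by linarith) (by linarith)
        · exact div_le_div_of_nonneg_right h2 (by positivity)

lemma cut_mul_quot (hT : 1 < T) (hb : b ^ 2 ≤ 1) (y t : ℝ) :
    cut R t * (dens (T - b ^ 2) y / dens T t) =
      cut R t * min (quotBound T R) (dens (T - b ^ 2) y / dens T t) := by
  rcases le_or_gt |t| (R + 1) with h | h
  · rw [min_eq_right (quot_le hT hb h y)]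
  · rw [cut_eq_zero h.le, zero_mul, zero_mul]

lemma chi_mem (hη1 : η ≤ 1) (t : ℝ) :
    0 ≤ (1 - η) * cut R t ∧ (1 - η) * cut R t ≤ 1 - η :=
  ⟨mul_nonneg (by linarith) (cut_mem R t).1,
    mul_le_of_le_one_right (by linarith) (cut_mem R t).2⟩

lemma ratio_mem (hT : 1 < T) (hb : b ^ 2 ≤ 1) (hη : 0 ≤ η) (hη1 : η ≤ 1) (y t : ℝ) :
    η ≤ ratio T η R b y t ∧ ratio T η R b y t ≤ 1 + quotBound T R := by
  obtain ⟨h0, h1⟩ := chi_mem (R := R) hη1 t
  have hq : 0 ≤ dens (T - b ^ 2) y / dens T t :=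
    (div_pos (dens_pos (by linarith) y) (dens_pos (by linarith) t)).le
  have e : ratio T η R b y t = (1 - (1 - η) * cut R t) + (1 - η) *
      (cut R t * (dens (T - b ^ 2) y / dens T t)) := by
    rw [ratio]; ring
  refine ⟨?_, ?_⟩
  · have := mul_nonneg (sub_nonneg.2 hη1) (mul_nonneg (cut_mem R t).1 hq)
    linarith
  · have h2 : cut R t * (dens (T - b ^ 2) y / dens T t) ≤ quotBound T R := by
      rw [cut_mul_quot hT hb]
      exact (mul_le_of_le_one_left
        (le_min ((zero_le_one.trans (one_le_quotBound hT))) hq) (cut_mem R t).2).trans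
        (min_le_left _ _)
    nlinarith [one_le_quotBound (R := R) hT, (cut_mem R t).1,
      mul_nonneg (cut_mem R t).1 hq]

lemma continuous_ratio (hT : 0 < T) : Continuous fun p : ℝ × ℝ => ratio T η R b p.1 p.2 :=
  continuous_const.add ((continuous_const.mul ((continuous_cut R).comp continuous_snd)).mul
    ((((continuous_dens _).comp continuous_fst).div ((continuous_dens T).comp continuous_snd)
      fun p => (dens_pos hT p.2).ne').sub continuous_const))

lemma mean_ratio (hT : 1 < T) (hb : b ^ 2 ≤ 1) (t : ℝ) :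
    Integrable (fun z => ratio T η R b (t + b * z) t) (gaussianReal 0 1) ∧
      ∫ z, ratio T η R b (t + b * z) t ∂gaussianReal 0 1 = 1 := by
  have hT0 : 0 < T := by linarith
  have hs : 0 < T - b ^ 2 := by linarith
  have hi : Integrable (fun z => dens (T - b ^ 2) (t + b * z)) (gaussianReal 0 1) :=
    Integrable.of_bound ((continuous_dens _).comp (by fun_prop)).aestronglyMeasurable
      (1 / √(2 * π * (T - b ^ 2))) (Filter.Eventually.of_forall fun z => by
        rw [Real.norm_eq_abs, abs_of_pos (dens_pos hs _)]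
        exact dens_le hs _)
  have hq : Integrable (fun z => (1 - η) * cut R t * (dens (T - b ^ 2) (t + b * z) / dens T t - 1))
      (gaussianReal 0 1) := ((hi.div_const _).sub (integrable_const _)).const_mul _
  refine ⟨(integrable_const _).add hq, ?_⟩
  simp only [ratio]
  rw [integral_add (integrable_const _) hq, integral_const_mul,
    integral_sub (hi.div_const _) (integrable_const _), integral_div, conv_dens hT0 hs,
    div_self (dens_pos hT0 t).ne']
  simp

/-- The tempered ratio is Lipschitz on its support. -/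
lemma ratio_diff (hT : 1 < T) (hb : b ^ 2 ≤ 1) (hη : 0 ≤ η) (hη1 : η ≤ 1) (y t y' t' : ℝ) :
    |ratio T η R b y t - ratio T η R b y' t'| ≤ (1 + quotBound T R) *
      (|t - t'| + (|y ^ 2 - y' ^ 2| + |t ^ 2 - t' ^ 2|) / (2 * (T - 1))) := by
  have hT0 : 0 < T := by linarith
  have hs : 0 < T - b ^ 2 := by linarith
  have hK1 := one_le_quotBound (R := R) hT
  set K := quotBound T R with hKdef
  have hK : 0 < K := by linarith
  have hq : ∀ y t, min K (dens (T - b ^ 2) y / dens T t) =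
      exp (min (Real.log K) (Real.log (dens (T - b ^ 2) y) - Real.log (dens T t))) := fun y t => by
    rw [exp_monotone.map_min, exp_log hK, exp_sub, exp_log (dens_pos hs _),
      exp_log (dens_pos hT0 _)]
  have hlip : ∀ a a', a ≤ Real.log K → a' ≤ Real.log K → |exp a - exp a'| ≤ K * |a - a'| := by
    intro a a' ha ha'
    wlog h : a' ≤ a generalizing a a'
    · rw [abs_sub_comm, abs_sub_comm a]; exact this a' a ha' ha (le_of_not_ge h)
    rw [abs_of_nonneg (sub_nonneg.2 (exp_le_exp.2 h)), abs_of_nonneg (sub_nonneg.2 h)]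
    have h1 : exp a * (1 + (a' - a)) ≤ exp a' := by
      calc exp a * (1 + (a' - a)) ≤ exp a * exp (a' - a) :=
            mul_le_mul_of_nonneg_left (by linarith [add_one_le_exp (a' - a)]) (exp_pos _).le
        _ = exp a' := by rw [← exp_add]; ring_nf
    have h2 : exp a ≤ K := (exp_le_exp.2 ha).trans_eq (exp_log hK)
    nlinarith [mul_le_mul_of_nonneg_right h2 (sub_nonneg.2 h)]
  have habs : ∀ a a' c : ℝ, |min c a - min c a'| ≤ |a - a'| := fun a a' c =>
    (abs_min_sub_min_le_max c a c a').trans (by simp)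
  set Q := fun y t => min K (dens (T - b ^ 2) y / dens T t) with hQ
  have hQd : |Q y t - Q y' t'| ≤ K * ((|y ^ 2 - y' ^ 2| + |t ^ 2 - t' ^ 2|) / (2 * (T - 1))) := by
    simp only [hQ]
    rw [hq, hq]
    refine ((hlip _ _ (min_le_left _ _) (min_le_left _ _)).trans
      (mul_le_mul_of_nonneg_left (habs _ _ _) hK.le)).trans ?_
    rw [log_dens hs, log_dens hT0, log_dens hs, log_dens hT0]
    refine mul_le_mul_of_nonneg_left ?_ hK.le
    calc _ = |(y' ^ 2 - y ^ 2) / (2 * (T - b ^ 2)) + (t ^ 2 - t' ^ 2) / (2 * T)| := by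
          congr 1; ring
      _ ≤ |(y' ^ 2 - y ^ 2) / (2 * (T - b ^ 2))| + |(t ^ 2 - t' ^ 2) / (2 * T)| := abs_add_le _ _
      _ ≤ |y ^ 2 - y' ^ 2| / (2 * (T - 1)) + |t ^ 2 - t' ^ 2| / (2 * (T - 1)) := by
          rw [abs_div, abs_div, abs_sub_comm (y' ^ 2),
            abs_of_pos (show 0 < 2 * (T - b ^ 2) by linarith),
            abs_of_pos (show 0 < 2 * T by linarith)]
          gcongr; linarith
      _ = _ := (add_div _ _ _).symm
  have e : ratio T η R b y t - ratio T η R b y' t' =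
      (1 - η) * ((cut R t - cut R t') * (Q y t - 1) + cut R t' * (Q y t - Q y' t')) := by
    simp only [ratio, hQ, mul_sub, mul_one, mul_assoc (1 - η), cut_mul_quot hT hb, ← hKdef]
    ring
  have hQ0 : |Q y t - 1| ≤ 1 + K := by
    have : 0 ≤ Q y t := le_min hK.le (div_pos (dens_pos hs y) (dens_pos hT0 t)).le
    have : Q y t ≤ K := min_le_left _ _
    rw [abs_le]; constructor <;> linarith
  rw [e, abs_mul, abs_of_nonneg (sub_nonneg.2 hη1)]
  refine (mul_le_of_le_one_left (abs_nonneg _) (by linarith)).trans ((abs_add_le _ _).trans ?_)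
  rw [abs_mul, abs_mul, mul_add, mul_comm (|cut R t - cut R t'|), abs_of_nonneg (cut_mem R t').1]
  refine add_le_add (mul_le_mul hQ0 (cut_lip R t t') (abs_nonneg _) (by linarith)) ?_
  refine ((mul_le_of_le_one_left (abs_nonneg _) (cut_mem R t').2).trans hQd).trans ?_
  exact mul_le_mul_of_nonneg_right (by linarith)
    (div_nonneg (add_nonneg (abs_nonneg _) (abs_nonneg _)) (by linarith))

/-- Pointwise lower bound for the gain, by the log-sum inequality. -/
lemma gain_ge (hT : 1 < T) (hb : b ^ 2 ≤ 1) (hη : 0 < η) (hη1 : η ≤ 1) (hR : 0 < R) (y t : ℝ) :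
    ratio T η R b y t * (Real.log (dens T t) - η)
        - (η + t ^ 2 / R ^ 2) * ((y ^ 2 + t ^ 2) / 2 + |Real.log η|) ≤
      ratio T η R b y t * Real.log (kern T η b y / ratio T η R b y t) := by
  have hT0 : 0 < T := by linarith
  have hs : 0 < T - b ^ 2 := by linarith
  obtain ⟨h0, h1⟩ := chi_mem (R := R) hη1 t
  set χ := (1 - η) * cut R t with hχ
  have hp := dens_pos hs y
  have hk := dens_pos hT0 y
  have ha := dens_pos hT0 t
  set p := dens (T - b ^ 2) y with hpdef
  set k := dens T y with hkdef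
  set a := dens T t with hadef
  set r := ratio T η R b y t with hr
  have hrpos : 0 < r := hη.trans_le (ratio_mem hT hb hη.le hη1 y t).1
  have hre : r = (1 - χ) + χ * (p / a) := by rw [hr, ratio]; ring
  have hA : 0 < 1 - χ := by linarith
  set S := p + η * k with hS
  have hSpos : 0 < S := by positivity
  set L := Real.log S - Real.log r - Real.log a with hL
  have hx : (1 - χ) * (Real.log η + Real.log k - Real.log (1 - χ) - Real.log a - L) ≤
      η * k * r / S - (1 - χ) := by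
    have h := mul_le_mul_of_nonneg_left (log_le_sub_one_of_pos
      (show 0 < η * k * r / ((1 - χ) * S) by positivity)) hA.le
    rw [log_div (by positivity) (by positivity), log_mul (by positivity) hrpos.ne',
      log_mul hη.ne' hk.ne', log_mul hA.ne' hSpos.ne'] at h
    calc _ = (1 - χ) * (Real.log η + Real.log k + Real.log r
          - (Real.log (1 - χ) + Real.log S)) := by rw [hL]; ring
      _ ≤ _ := h.trans_eq (by field_simp)
  have hy : χ * (p / a) * (-L) ≤ p * r / S - χ * (p / a) := by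
    rcases h0.eq_or_lt with h | h
    · rw [← h]
      simp only [zero_mul, sub_zero]
      positivity
    · have h2 := mul_le_mul_of_nonneg_left (log_le_sub_one_of_pos
        (show 0 < a * r / (χ * S) by positivity)) (show 0 ≤ χ * (p / a) by positivity)
      rw [log_div (by positivity) (by positivity), log_mul ha.ne' hrpos.ne',
        log_mul h.ne' hSpos.ne'] at h2
      have hlog : Real.log χ ≤ 0 := log_nonpos h0 (by linarith)
      have h3 := mul_le_mul_of_nonneg_left (show -L ≤ Real.log a + Real.log r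
        - (Real.log χ + Real.log S) by rw [hL]; linarith) (show 0 ≤ χ * (p / a) by positivity)
      refine h3.trans (h2.trans_eq ?_)
      field_simp
  have hz : η * k * r / S + p * r / S = r := by field_simp; rw [hS]; ring
  have hlog1 : Real.log (1 - χ) ≤ 0 := log_nonpos hA.le (by linarith)
  have hak : |Real.log a - Real.log k| ≤ (y ^ 2 + t ^ 2) / 2 := by
    rw [hadef, hkdef, log_dens hT0, log_dens hT0,
      show -t ^ 2 / (2 * T) - Real.log (2 * π * T) / 2 - (-y ^ 2 / (2 * T)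
        - Real.log (2 * π * T) / 2) = (y ^ 2 - t ^ 2) / (2 * T) by ring, abs_div,
      abs_of_pos (show 0 < 2 * T by linarith)]
    have : |y ^ 2 - t ^ 2| ≤ y ^ 2 + t ^ 2 :=
      abs_le.2 ⟨by linarith [sq_nonneg y], by linarith [sq_nonneg t]⟩
    exact (div_le_div_of_nonneg_left (abs_nonneg _) two_pos (by linarith)).trans
      (div_le_div_of_nonneg_right this two_pos.le)
  have hχle : 1 - χ ≤ η + t ^ 2 / R ^ 2 := by
    have := one_sub_cut_le (t := t) hR
    have := (cut_mem R t).2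
    rw [hχ]
    nlinarith
  have hl : Real.log (1 + η) ≤ η := by linarith [log_le_sub_one_of_pos (show 0 < 1 + η by linarith)]
  have hg : Real.log (kern T η b y / r) = Real.log S - Real.log (1 + η) - Real.log r := by
    have hk' : kern T η b y = S / (1 + η) := rfl
    rw [hk', log_div (by positivity) hrpos.ne', log_div hSpos.ne' (by linarith)]
  rw [hg]
  have hB := mul_le_mul hχle (show |Real.log η| + |Real.log a - Real.log k| ≤
    (y ^ 2 + t ^ 2) / 2 + |Real.log η| by linarith) (by positivity) (by positivity)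
  have hLow : -((1 - χ) * (|Real.log η| + |Real.log a - Real.log k|)) ≤ r * L := by
    have : (1 - χ) * (-(|Real.log η| + |Real.log a - Real.log k|)) ≤
        (1 - χ) * (Real.log η + Real.log k - Real.log (1 - χ) - Real.log a) :=
      mul_le_mul_of_nonneg_left (by
        linarith [neg_abs_le (Real.log η), le_abs_self (Real.log a - Real.log k)]) hA.le
    rw [hre]
    linarith
  have := mul_le_mul_of_nonneg_left hl hrpos.le
  rw [hL] at hLow
  linarith

/-- A constant bounding the logarithm of kernel over weight up to a quadratic term. -/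
noncomputable def gainConst (T η R : ℝ) : ℝ :=
  2 * |Real.log η| + 1 + |Real.log (2 * π * T)| + |Real.log (2 * π * (T - 1))|
    + |Real.log (1 + quotBound T R)|

lemma gain_abs (hT : 1 < T) (hb : b ^ 2 ≤ 1) (hη : 0 < η) (hη1 : η ≤ 1) (y t : ℝ) :
    |Real.log (kern T η b y / ratio T η R b y t)| ≤ gainConst T η R + y ^ 2 / 2 := by
  have hT0 : 0 < T := by linarith
  have hs : 0 < T - b ^ 2 := by linarith
  have hp := dens_pos hs y
  have hq := dens_pos hT0 y
  have hk : 0 < kern T η b y := div_pos (add_pos hp (mul_pos hη hq)) (by linarith)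
  obtain ⟨hm1, hm2⟩ := ratio_mem (R := R) hT hb hη.le hη1 y t
  have hw := hη.trans_le hm1
  have hw1 := log_le_log hη hm1
  have hw2 := log_le_log hw hm2
  have h2π : 0 < 2 * π * (T - 1) := by have := pi_pos; positivity
  have hmax : ∀ v, T - 1 ≤ v → dens v y ≤ 1 / √(2 * π * (T - 1)) := fun v hv =>
    (dens_le (by linarith) y).trans
      (one_div_le_one_div_of_le (sqrt_pos.2 h2π) (by gcongr))
  have hup : Real.log (kern T η b y) ≤ -Real.log (2 * π * (T - 1)) / 2 := by
    calc Real.log (kern T η b y) ≤ Real.log (1 / √(2 * π * (T - 1))) := by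
          refine log_le_log hk ((div_le_iff₀ (by linarith)).2 ?_)
          nlinarith [hmax (T - b ^ 2) (by linarith), hmax T (by linarith)]
      _ = _ := by rw [one_div, log_inv, log_sqrt h2π.le, neg_div]
  have hlo : Real.log η - 1 - y ^ 2 / 2 - Real.log (2 * π * T) / 2 ≤ Real.log (kern T η b y) := by
    have h2 := log_le_log (mul_pos hη hq) (le_add_of_nonneg_left hp.le :
      η * dens T y ≤ dens (T - b ^ 2) y + η * dens T y)
    rw [log_mul hη.ne' hq.ne', log_dens hT0, neg_div] at h2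
    rw [kern, log_div (by positivity) (by linarith)]
    have : y ^ 2 / (2 * T) ≤ y ^ 2 / 2 :=
      div_le_div_of_nonneg_left (sq_nonneg y) two_pos (by linarith)
    linarith [log_le_sub_one_of_pos (show 0 < 1 + η by linarith)]
  rw [log_div hk.ne' hw.ne', gainConst, abs_le]
  constructor <;>
    linarith [abs_le.1 (le_refl |Real.log η|), abs_le.1 (le_refl |Real.log (2 * π * T)|),
      abs_le.1 (le_refl |Real.log (2 * π * (T - 1))|), abs_le.1 (le_refl |Real.log (1 + quotBound T R)|),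
      sq_nonneg y]

end Ratio

lemma abs_dot_le {n : ℕ} {u e : Fin n → ℝ} (hu : u ⬝ᵥ u = 1) (he : e = 0 ∨ e ⬝ᵥ e = 1) :
    (u ⬝ᵥ e) ^ 2 ≤ 1 ∧ (u - (u ⬝ᵥ e) • e) ⬝ᵥ (u - (u ⬝ᵥ e) • e) = 1 - (u ⬝ᵥ e) ^ 2 := by
  have h : (u - (u ⬝ᵥ e) • e) ⬝ᵥ (u - (u ⬝ᵥ e) • e) = 1 - (u ⬝ᵥ e) ^ 2 := by
    simp only [sub_dotProduct, dotProduct_sub, smul_dotProduct, dotProduct_smul, smul_eq_mul, hu,
      dotProduct_comm e u]
    rcases he with rfl | he
    · simp
    · rw [he]; ring
  have := dot_self_nonneg (u - (u ⬝ᵥ e) • e)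
  exact ⟨by linarith, h⟩

lemma fourth_moment_le {n : ℕ} {a : Fin n → ℝ} (ha : a ⬝ᵥ a ≤ 1) :
    ∫ x, (x ⬝ᵥ a) ^ 4 ∂gauss n ≤ ∫ y, y ^ 4 ∂gaussianReal 0 1 := by
  have h0 := dot_self_nonneg a
  set c := √(a ⬝ᵥ a)
  have hc : gaussianReal 0 (a ⬝ᵥ a).toNNReal = (gaussianReal 0 1).map (fun y => c * y) := by
    rw [gaussianReal_map_const_mul, mul_zero]
    congr 1
    ext
    simp [Real.coe_toNNReal _ h0, c, sq_sqrt h0]
  rw [integral_dot_pow, hc, integral_map (by fun_prop) (by fun_prop)]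
  simp only [mul_pow, integral_const_mul]
  exact mul_le_of_le_one_left (integral_nonneg fun y => by positivity)
    (pow_le_one₀ (sqrt_nonneg _) (Real.sqrt_le_one.2 ha))

section Weight

variable {T η R : ℝ} {n : ℕ}

lemma continuous_weight (hT : 0 < T) (u e : Fin n → ℝ) : Continuous (weight T η R u e) := by
  have h2 : Continuous fun x : Fin n → ℝ => (x ⬝ᵥ u, x ⬝ᵥ u - u ⬝ᵥ e * (x ⬝ᵥ e)) :=
    (continuous_dot_left u).prodMk
      ((continuous_dot_left u).sub ((continuous_const (y := u ⬝ᵥ e)).mul (continuous_dot_left e)))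
  have h3 := (continuous_ratio (T := T) (η := η) (R := R) (b := u ⬝ᵥ e) hT).comp h2
  simp only [Function.comp_def] at h3
  unfold weight
  exact h3

lemma weight_mem (hT : 1 < T) (hη : 0 < η) (hη1 : η ≤ 1) {u e : Fin n → ℝ} (hu : u ⬝ᵥ u = 1)
    (he : e = 0 ∨ e ⬝ᵥ e = 1) (x : Fin n → ℝ) :
    η ≤ weight T η R u e x ∧ weight T η R u e x ≤ 1 + quotBound T R ∧
      |weight T η R u e x| ≤ 1 + quotBound T R := by
  obtain ⟨h1, h2⟩ : η ≤ weight T η R u e x ∧ weight T η R u e x ≤ 1 + quotBound T R :=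
    ratio_mem hT (abs_dot_le hu he).1 hη.le hη1 _ _
  exact ⟨h1, h2, abs_le.2 ⟨by linarith, h2⟩⟩

lemma integrable_weight (hT : 1 < T) (hη : 0 < η) (hη1 : η ≤ 1) {u e : Fin n → ℝ}
    (hu : u ⬝ᵥ u = 1) (he : e = 0 ∨ e ⬝ᵥ e = 1) : Integrable (weight T η R u e) (gauss n) :=
  Integrable.of_bound (continuous_weight (by linarith) u e).aestronglyMeasurable (1 + quotBound T R)
    (Filter.Eventually.of_forall fun x => (weight_mem hT hη hη1 hu he x).2.2)

/-- In the coordinates of `gauss_integral_split` the weight only depends on the residual form. -/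
lemma weight_split {u e : Fin n → ℝ} (he : e ⬝ᵥ e = 1) (x : Fin n → ℝ) (z : ℝ) :
    weight T η R u e (x - (x ⬝ᵥ e) • e + z • e) =
      ratio T η R (u ⬝ᵥ e) (x ⬝ᵥ (u - (u ⬝ᵥ e) • e) + u ⬝ᵥ e * z) (x ⬝ᵥ (u - (u ⬝ᵥ e) • e)) := by
  simp only [weight, add_dotProduct, sub_dotProduct, smul_dotProduct, dotProduct_sub,
    dotProduct_smul, smul_eq_mul, he, dotProduct_comm e u]
  congr 1 <;> ring

lemma weight_zero (hT : 0 < T) (u x : Fin n → ℝ) : weight T η R u 0 x = 1 := by
  simp [weight, ratio, (dens_pos hT _).ne']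

lemma cond_weight (hT : 1 < T) {u e : Fin n → ℝ} (hu : u ⬝ᵥ u = 1) (he : e ⬝ᵥ e = 1)
    (x : Fin n → ℝ) :
    Integrable (fun z => weight T η R u e (x - (x ⬝ᵥ e) • e + z • e)) (gaussianReal 0 1) ∧
      ∫ z, weight T η R u e (x - (x ⬝ᵥ e) • e + z • e) ∂gaussianReal 0 1 = 1 := by
  simp only [weight_split he]
  exact mean_ratio hT (abs_dot_le hu (Or.inr he)).1 _

lemma mean_weight (hT : 1 < T) (hη : 0 < η) (hη1 : η ≤ 1) {u e : Fin n → ℝ} (hu : u ⬝ᵥ u = 1)
    (he : e = 0 ∨ e ⬝ᵥ e = 1) : ∫ x, weight T η R u e x ∂gauss n = 1 := by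
  rcases he with rfl | he
  · simp [weight_zero (show 0 < T by linarith)]
  · rw [(gauss_integral_split he (integrable_weight hT hη hη1 hu (Or.inr he))).2]
    simp [(cond_weight hT hu he _).2]

lemma logGain_facts (hT : 1 < T) (hη : 0 < η) (hη1 : η ≤ 1) {u e : Fin n → ℝ}
    (hu : u ⬝ᵥ u = 1) (he : e = 0 ∨ e ⬝ᵥ e = 1) :
    Integrable (logGain T η R u e) (gauss n) ∧
      Integrable (fun x => logGain T η R u e x ^ 2) (gauss n) ∧
      ∫ x, logGain T η R u e x ^ 2 ∂gauss n ≤
        2 * gainConst T η R ^ 2 + ∫ y, y ^ 4 ∂gaussianReal 0 1 := by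
  have hT0 : 0 < T := by linarith
  obtain ⟨hb, -⟩ := abs_dot_le hu he
  have hwpos : ∀ x, 0 < weight T η R u e x := fun x =>
    hη.trans_le (weight_mem hT hη hη1 hu he x).1
  have hc : Continuous (logGain T η R u e) := by
    have hw : Continuous (weight T η R u e) := continuous_weight hT0 u e
    have hk : Continuous fun x : Fin n → ℝ => kern T η (u ⬝ᵥ e) (x ⬝ᵥ u) :=
      ((((continuous_dens _).comp (continuous_dot_left u)).add
        (continuous_const.mul ((continuous_dens T).comp (continuous_dot_left u))))).div_const _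
    refine (hk.div hw fun x => (hwpos x).ne').log fun x => ?_
    refine (div_pos (div_pos (add_pos (dens_pos ?_ _) (mul_pos hη (dens_pos hT0 _)))
      (by linarith)) (hwpos x)).ne'
    linarith
  have hpt : ∀ x, |logGain T η R u e x| ≤ gainConst T η R + (x ⬝ᵥ u) ^ 2 / 2 := fun x =>
    gain_abs hT hb hη hη1 _ _
  have hpt2 : ∀ x, logGain T η R u e x ^ 2 ≤
      2 * gainConst T η R ^ 2 + (x ⬝ᵥ u) ^ 4 := fun x => by
    have h := pow_le_pow_left₀ (abs_nonneg _) (hpt x) 2
    rw [sq_abs] at h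
    nlinarith [sq_nonneg (gainConst T η R - (x ⬝ᵥ u) ^ 2 / 2), sq_nonneg ((x ⬝ᵥ u) ^ 2)]
  have hi4 := integrable_dot_pow u 4
  have hi2 : Integrable (fun x => logGain T η R u e x ^ 2) (gauss n) :=
    ((integrable_const (2 * gainConst T η R ^ 2)).add hi4).mono' (hc.pow 2).aestronglyMeasurable
      (Filter.Eventually.of_forall fun x => by
        rw [Real.norm_eq_abs, abs_of_nonneg (sq_nonneg _)]; exact hpt2 x)
  refine ⟨((integrable_const (gainConst T η R)).add ((integrable_dot_pow u 2).div_const 2)).mono'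
    hc.aestronglyMeasurable (Filter.Eventually.of_forall hpt), hi2, ?_⟩
  calc ∫ x, logGain T η R u e x ^ 2 ∂gauss n
      ≤ ∫ x, (2 * gainConst T η R ^ 2 + (x ⬝ᵥ u) ^ 4) ∂gauss n :=
        integral_mono hi2 ((integrable_const _).add hi4) hpt2
    _ = _ := by
        rw [integral_add (integrable_const _) hi4, integral_dot_pow, hu, Real.toNNReal_one]
        simp

lemma mean_gain (hT : 1 < T) (hη : 0 < η) (hη1 : η ≤ 1) (hR : 0 < R) {u e : Fin n → ℝ}
    (hu : u ⬝ᵥ u = 1) (he : e = 0 ∨ e ⬝ᵥ e = 1) :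
    Integrable (fun x => weight T η R u e x * logGain T η R u e x) (gauss n) ∧
      -(Real.log (2 * π * T)) / 2 - (1 - (u ⬝ᵥ e) ^ 2) / (2 * T)
          - (2 * η + η * |Real.log η|
            + (|Real.log η| + ∫ y, y ^ 4 ∂gaussianReal 0 1) / R ^ 2)
        ≤ ∫ x, weight T η R u e x * logGain T η R u e x ∂gauss n := by
  have hT0 : 0 < T := by linarith
  obtain ⟨hb, hvar⟩ := abs_dot_le hu he
  have hwc := continuous_weight (η := η) (R := R) hT0 u e
  have hwb := weight_mem (R := R) hT hη hη1 hu he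
  have hwG : Integrable (fun x => weight T η R u e x * logGain T η R u e x) (gauss n) :=
    (logGain_facts hT hη hη1 hu he).1.bdd_mul hwc.aestronglyMeasurable
      (Filter.Eventually.of_forall fun x => (hwb x).2.2)
  refine ⟨hwG, ?_⟩
  set a := u - (u ⬝ᵥ e) • e with ha
  set g := fun x : Fin n → ℝ => Real.log (dens T (x ⬝ᵥ a)) - η with hg
  have hgeq : ∀ x : Fin n → ℝ,
      g x = -(x ⬝ᵥ a) ^ 2 / (2 * T) - Real.log (2 * π * T) / 2 - η := fun x => by
    simp only [hg, log_dens hT0]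
  have hgi : Integrable g (gauss n) := by
    simp only [funext hgeq]
    exact ((((integrable_dot_pow a 2).neg).div_const _).sub (integrable_const _)).sub
      (integrable_const _)
  have hgint : ∫ x, g x ∂gauss n =
      -(1 - (u ⬝ᵥ e) ^ 2) / (2 * T) - Real.log (2 * π * T) / 2 - η := by
    simp only [funext hgeq]
    rw [integral_sub, integral_sub, integral_div, integral_neg, integral_dot_sq, hvar]
    · simp
    · exact ((integrable_dot_pow a 2).neg).div_const _
    · exact integrable_const _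
    · exact (((integrable_dot_pow a 2).neg).div_const _).sub (integrable_const _)
    · exact integrable_const _
  have hgx : ∀ x : Fin n → ℝ, x ⬝ᵥ u - u ⬝ᵥ e * (x ⬝ᵥ e) = x ⬝ᵥ a := fun x => by
    simp [ha, dotProduct_sub, dotProduct_smul]
  have hwg : Integrable (fun x => weight T η R u e x * g x) (gauss n) :=
    hgi.bdd_mul hwc.aestronglyMeasurable (Filter.Eventually.of_forall fun x => (hwb x).2.2)
  have hexact : ∫ x, weight T η R u e x * g x ∂gauss n = ∫ x, g x ∂gauss n := by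
    rcases he with rfl | he
    · simp [weight_zero hT0]
    · rw [(gauss_integral_split he hwg).2]
      refine integral_congr_ae (Filter.Eventually.of_forall fun x => ?_)
      have e1 : ∀ z : ℝ, g (x - (x ⬝ᵥ e) • e + z • e) = g x := fun z => by
        simp only [hg, ha, add_dotProduct, sub_dotProduct, smul_dotProduct, dotProduct_sub,
          dotProduct_smul, smul_eq_mul, he, dotProduct_comm e u]
        congr 3; ring
      simp only [e1, integral_mul_const, (cond_weight hT hu he x).2, one_mul]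
  set M4 := ∫ y, y ^ 4 ∂gaussianReal 0 1 with hM4
  set E := fun x : Fin n → ℝ =>
    η / 2 * (x ⬝ᵥ u) ^ 2 + (η / 2 + |Real.log η| / R ^ 2) * (x ⬝ᵥ a) ^ 2
      + (3 * (x ⬝ᵥ a) ^ 4 + (x ⬝ᵥ u) ^ 4) / (4 * R ^ 2) + η * |Real.log η| with hE
  have a1 := (integrable_dot_pow u 2).const_mul (η / 2)
  have a2 := (integrable_dot_pow a 2).const_mul (η / 2 + |Real.log η| / R ^ 2)
  have a3 : Integrable (fun x : Fin n → ℝ => (3 * (x ⬝ᵥ a) ^ 4 + (x ⬝ᵥ u) ^ 4) / (4 * R ^ 2))
      (gauss n) := (((integrable_dot_pow a 4).const_mul 3).add (integrable_dot_pow u 4)).div_const _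
  have hEi : Integrable E (gauss n) := ((a1.add a2).add a3).add (integrable_const _)
  have hEint : ∫ x, E x ∂gauss n ≤ η + η * |Real.log η| + (|Real.log η| + M4) / R ^ 2 := by
    have a12 : Integrable (fun x : Fin n → ℝ => η / 2 * (x ⬝ᵥ u) ^ 2
        + (η / 2 + |Real.log η| / R ^ 2) * (x ⬝ᵥ a) ^ 2) (gauss n) := a1.add a2
    have a123 : Integrable (fun x : Fin n → ℝ => η / 2 * (x ⬝ᵥ u) ^ 2
        + (η / 2 + |Real.log η| / R ^ 2) * (x ⬝ᵥ a) ^ 2
        + (3 * (x ⬝ᵥ a) ^ 4 + (x ⬝ᵥ u) ^ 4) / (4 * R ^ 2)) (gauss n) := a12.add a3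
    simp only [hE]
    rw [integral_add a123 (integrable_const _), integral_add a12 a3, integral_add a1 a2,
      integral_div, integral_add ((integrable_dot_pow a 4).const_mul 3) (integrable_dot_pow u 4),
      integral_const_mul, integral_const_mul, integral_const_mul, integral_dot_sq, integral_dot_sq,
      hu, hvar]
    simp only [integral_const, probReal_univ, one_smul, mul_one]
    have h4a : ∫ x, (x ⬝ᵥ a) ^ 4 ∂gauss n ≤ M4 :=
      fourth_moment_le (by rw [hvar]; linarith [sq_nonneg (u ⬝ᵥ e)])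
    have h4u : ∫ x, (x ⬝ᵥ u) ^ 4 ∂gauss n ≤ M4 := fourth_moment_le hu.le
    have h5 : (3 * ∫ x, (x ⬝ᵥ a) ^ 4 ∂gauss n + ∫ x, (x ⬝ᵥ u) ^ 4 ∂gauss n) / (4 * R ^ 2) ≤
        M4 / R ^ 2 := by
      rw [div_le_div_iff₀ (by positivity) (by positivity)]
      nlinarith
    have h6 : (η / 2 + |Real.log η| / R ^ 2) * (1 - (u ⬝ᵥ e) ^ 2) ≤
        η / 2 + |Real.log η| / R ^ 2 :=
      mul_le_of_le_one_right (by positivity) (by linarith [sq_nonneg (u ⬝ᵥ e)])
    linarith [add_div |Real.log η| M4 (R ^ 2)]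
  have h1 : ∫ x, (weight T η R u e x * g x - E x) ∂gauss n ≤
      ∫ x, weight T η R u e x * logGain T η R u e x ∂gauss n :=
    integral_mono (hwg.sub hEi) hwG fun x => by
      have h := gain_ge hT hb hη hη1 hR (x ⬝ᵥ u) (x ⬝ᵥ u - u ⬝ᵥ e * (x ⬝ᵥ e))
      have hexp : (η + (x ⬝ᵥ a) ^ 2 / R ^ 2)
          * (((x ⬝ᵥ u) ^ 2 + (x ⬝ᵥ a) ^ 2) / 2 + |Real.log η|) ≤ E x := by
        have hpair : ((x ⬝ᵥ a) ^ 2 * (x ⬝ᵥ u) ^ 2 + (x ⬝ᵥ a) ^ 4) / (2 * R ^ 2) ≤
            (3 * (x ⬝ᵥ a) ^ 4 + (x ⬝ᵥ u) ^ 4) / (4 * R ^ 2) := by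
          rw [div_le_div_iff₀ (by positivity) (by positivity)]
          nlinarith [mul_nonneg (sq_nonneg R) (sq_nonneg ((x ⬝ᵥ a) ^ 2 - (x ⬝ᵥ u) ^ 2))]
        calc _ = η / 2 * (x ⬝ᵥ u) ^ 2 + (η / 2 + |Real.log η| / R ^ 2) * (x ⬝ᵥ a) ^ 2
              + ((x ⬝ᵥ a) ^ 2 * (x ⬝ᵥ u) ^ 2 + (x ⬝ᵥ a) ^ 4) / (2 * R ^ 2)
              + η * |Real.log η| := by ring
          _ ≤ _ := by simp only [hE]; linarith
      rw [hgx] at h
      simp only [weight, logGain, hgx, hg]
      linarith
  rw [integral_sub hwg hEi, hexact, hgint] at h1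
  rw [neg_div] at h1
  linarith

/-- Two weights whose residual directions are nearly orthogonal are nearly uncorrelated. -/
lemma pair_corr (hT : 1 < T) (hη : 0 < η) (hη1 : η ≤ 1) {u e v f : Fin n → ℝ} {σ : ℝ}
    (hu : u ⬝ᵥ u = 1) (hv : v ⬝ᵥ v = 1) (he : e = 0 ∨ e ⬝ᵥ e = 1) (hf : f = 0 ∨ f ⬝ᵥ f = 1)
    (hev : |e ⬝ᵥ v| ≤ σ) (hef : |e ⬝ᵥ f| ≤ σ) :
    |∫ x, weight T η R u e x * weight T η R v f x ∂gauss n - 1| ≤
      (1 + quotBound T R) ^ 2 * (2 + 6 / (T - 1)) * σ := by
  have hT0 : 0 < T := by linarith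
  have hT1 : 0 < T - 1 := by linarith
  have hσ : 0 ≤ σ := (abs_nonneg _).trans hev
  rcases he with rfl | he
  · simp only [weight_zero hT0, one_mul, mean_weight hT hη hη1 hv hf, sub_self, abs_zero]
    positivity
  obtain ⟨hb, hvar⟩ := abs_dot_le hv hf
  set b := v ⬝ᵥ f with hbdef
  set K := 1 + quotBound T R with hKdef
  have hK1 : 1 ≤ K := by linarith [one_le_quotBound (R := R) hT]
  set Wu := weight T η R u e
  set Wv := weight T η R v f with hWv
  set P := fun x : Fin n → ℝ => x - (x ⬝ᵥ e) • e with hP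
  have hWvc : Continuous Wv := continuous_weight hT0 v f
  have hWuc : Continuous Wu := continuous_weight hT0 u e
  have hWvb : ∀ x, |Wv x| ≤ K := fun x => (weight_mem hT hη hη1 hv hf x).2.2
  have hWui : Integrable Wu (gauss n) := integrable_weight hT hη hη1 hu (Or.inr he)
  have hWvi : Integrable Wv (gauss n) := integrable_weight hT hη hη1 hv hf
  have hWW : Integrable (fun x => Wu x * Wv x) (gauss n) :=
    hWui.mul_bdd hWvc.aestronglyMeasurable (Filter.Eventually.of_forall hWvb)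
  have hprod : Integrable (fun x => (Wu x - 1) * Wv x) (gauss n) :=
    (hWui.sub (integrable_const 1)).mul_bdd hWvc.aestronglyMeasurable
      (Filter.Eventually.of_forall hWvb)
  have hcov : ∫ x, Wu x * Wv x ∂gauss n - 1 = ∫ x, (Wu x - 1) * Wv x ∂gauss n := by
    simp only [sub_mul, one_mul]
    rw [integral_sub hWW hWvi]
    simp only [hWv, mean_weight hT hη hη1 hv hf]
  rw [hcov, (gauss_integral_split he hprod).2]
  have hm1 : ∀ x, |Wu x - 1| ≤ K := fun x => by
    obtain ⟨h1, h2, -⟩ : η ≤ Wu x ∧ Wu x ≤ K ∧ |Wu x| ≤ K :=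
      weight_mem hT hη hη1 hu (Or.inr he) x
    rw [abs_le]; constructor <;> linarith
  set p := v - (v ⬝ᵥ e) • e with hp
  set q := (v - b • f) - ((v - b • f) ⬝ᵥ e) • e with hq
  have hpy : ∀ x, P x ⬝ᵥ v = x ⬝ᵥ p := fun x => by
    simp only [hP, hp, sub_dotProduct, smul_dotProduct, dotProduct_sub, dotProduct_smul,
      smul_eq_mul, dotProduct_comm e v]
    ring
  have hpt : ∀ x, P x ⬝ᵥ v - b * (P x ⬝ᵥ f) = x ⬝ᵥ q := fun x => by
    simp only [hP, hq, sub_dotProduct, smul_dotProduct, dotProduct_sub, dotProduct_smul,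
      smul_eq_mul, dotProduct_comm e v, dotProduct_comm e f]
    ring
  have hdiff : ∀ x z, |Wv (P x + z • e) - Wv (P x)| ≤
      K * σ * ((1 + z ^ 2) + ((x ⬝ᵥ p) ^ 2 + 2 * (x ⬝ᵥ q) ^ 2 + 8 * z ^ 2) / (2 * (T - 1))) :=
    fun x z => by
    refine (ratio_diff (η := η) (R := R) hT hb hη.le hη1 _ _ _ _).trans ?_
    rw [← hKdef, mul_assoc K σ]
    refine mul_le_mul_of_nonneg_left ?_ (by linarith)
    rw [← hbdef, hpt, hpy]
    simp only [add_dotProduct, smul_dotProduct, smul_eq_mul, hpy]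
    rw [show x ⬝ᵥ p + z * (e ⬝ᵥ v) - b * (P x ⬝ᵥ f + z * (e ⬝ᵥ f)) =
      x ⬝ᵥ q + z * (e ⬝ᵥ v - b * (e ⬝ᵥ f)) by rw [← hpt x, hpy]; ring]
    set c := e ⬝ᵥ v
    set d := e ⬝ᵥ v - b * (e ⬝ᵥ f) with hd
    have hb1 : |b| ≤ 1 := (sq_le_one_iff_abs_le_one b).1 hb
    have hc1 : |c| ≤ 1 := (sq_le_one_iff_abs_le_one _).1 (abs_dot_le hv (Or.inr he)).1 |>.trans'
      (le_of_eq (by rw [show c = v ⬝ᵥ e from dotProduct_comm _ _]))
    have hg1 : |e ⬝ᵥ f| ≤ 1 := by
      rcases hf with rfl | hf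
      · simp
      · exact (sq_le_one_iff_abs_le_one _).1 (abs_dot_le he (Or.inr hf)).1
    have hbf : |b * (e ⬝ᵥ f)| ≤ |e ⬝ᵥ f| := by
      rw [abs_mul]; exact mul_le_of_le_one_left (abs_nonneg _) hb1
    have hd2 : |d| ≤ 2 * σ := (abs_sub _ _).trans (by linarith)
    have hd1 : |d| ≤ 2 := (abs_sub _ _).trans (by linarith)
    have key : ∀ A s k : ℝ, |s| ≤ k * σ → |s| ≤ k → 0 ≤ k →
        |(A + z * s) ^ 2 - A ^ 2| ≤ k * σ * (A ^ 2 + (1 + k) * z ^ 2) := fun A s k h1 h2 hk => by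
      rw [show (A + z * s) ^ 2 - A ^ 2 = s * (z * (2 * A + z * s)) by ring, abs_mul]
      refine mul_le_mul h1 ?_ (abs_nonneg _) (by positivity)
      rw [abs_mul]
      calc |z| * |2 * A + z * s| ≤ |z| * (2 * |A| + |z| * k) := by
            refine mul_le_mul_of_nonneg_left ((abs_add_le _ _).trans ?_) (abs_nonneg z)
            rw [abs_mul, abs_mul, abs_two]
            gcongr
        _ ≤ A ^ 2 + (1 + k) * z ^ 2 := by
            nlinarith [sq_abs z, sq_abs A, sq_nonneg (|z| - |A|)]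
    have k1 := key (x ⬝ᵥ p) c 1 (by rwa [one_mul]) hc1 zero_le_one
    have k2 := key (x ⬝ᵥ q) d 2 hd2 hd1 zero_le_two
    have k0 : |x ⬝ᵥ q + z * d - x ⬝ᵥ q| ≤ σ * (1 + z ^ 2) := by
      rw [add_sub_cancel_left, abs_mul]
      refine (mul_le_mul_of_nonneg_left hd2 (abs_nonneg z)).trans ?_
      nlinarith [sq_abs z, mul_nonneg hσ (sq_nonneg (|z| - 1))]
    have k3 : |(x ⬝ᵥ p + z * c) ^ 2 - (x ⬝ᵥ p) ^ 2| + |(x ⬝ᵥ q + z * d) ^ 2 - (x ⬝ᵥ q) ^ 2| ≤
        σ * ((x ⬝ᵥ p) ^ 2 + 2 * (x ⬝ᵥ q) ^ 2 + 8 * z ^ 2) := by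
      nlinarith [k1, k2, mul_nonneg hσ (sq_nonneg z)]
    rw [mul_add σ, ← mul_div_assoc]
    exact add_le_add k0 (div_le_div_of_nonneg_right k3 (by linarith))
  set D := fun x => K * σ * (2 + ((x ⬝ᵥ p) ^ 2 + 2 * (x ⬝ᵥ q) ^ 2 + 8) / (2 * (T - 1))) with hD
  have hDi : Integrable D (gauss n) :=
    ((integrable_const 2).add ((((integrable_dot_pow p 2).add
      ((integrable_dot_pow q 2).const_mul 2)).add (integrable_const _)).div_const _)).const_mul _
  have hinner : ∀ x, |∫ z, (Wu (P x + z • e) - 1) * Wv (P x + z • e) ∂gaussianReal 0 1| ≤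
      K * D x := fun x => by
    have hc : Continuous fun z : ℝ => P x + z • e := by fun_prop
    obtain ⟨i3, hmean⟩ : Integrable (fun z => Wu (P x + z • e)) (gaussianReal 0 1) ∧
        ∫ z, Wu (P x + z • e) ∂gaussianReal 0 1 = 1 := cond_weight hT hu he x
    have i1 : Integrable (fun z : ℝ => Wu (P x + z • e) - 1) (gaussianReal 0 1) :=
      i3.sub (integrable_const _)
    have i2 : Integrable (fun z : ℝ => (Wu (P x + z • e) - 1) * Wv (P x + z • e))
        (gaussianReal 0 1) :=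
      i1.mul_bdd (hWvc.comp hc).aestronglyMeasurable
        (Filter.Eventually.of_forall fun z => hWvb _)
    have e1 : ∫ z, (Wu (P x + z • e) - 1) * Wv (P x + z • e) ∂gaussianReal 0 1 =
        ∫ z, (Wu (P x + z • e) - 1) * (Wv (P x + z • e) - Wv (P x)) ∂gaussianReal 0 1 := by
      simp only [mul_sub]
      rw [integral_sub i2 (i1.mul_const _), integral_mul_const,
        integral_sub i3 (integrable_const _), hmean]
      simp
    have j2 : Integrable (fun z : ℝ => z ^ 2) (gaussianReal 0 1) :=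
      integrable_pow_gaussianReal 1 2
    have j3 : Integrable (fun z : ℝ => 1 + z ^ 2) (gaussianReal 0 1) :=
      (integrable_const 1).add j2
    have j4 : Integrable (fun z : ℝ => (x ⬝ᵥ p) ^ 2 + 2 * (x ⬝ᵥ q) ^ 2 + 8 * z ^ 2)
        (gaussianReal 0 1) := (integrable_const _).add (j2.const_mul 8)
    have i4 : Integrable (fun z : ℝ => K * (K * σ * ((1 + z ^ 2) +
        ((x ⬝ᵥ p) ^ 2 + 2 * (x ⬝ᵥ q) ^ 2 + 8 * z ^ 2) / (2 * (T - 1))))) (gaussianReal 0 1) :=
      ((j3.add (j4.div_const _)).const_mul _).const_mul _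
    rw [e1, ← Real.norm_eq_abs]
    refine (norm_integral_le_of_norm_le i4 (Filter.Eventually.of_forall fun z => ?_)).trans ?_
    · rw [Real.norm_eq_abs, abs_mul]
      exact mul_le_mul (hm1 _) (hdiff x z) (abs_nonneg _) (by linarith)
    · rw [integral_const_mul, integral_const_mul, integral_add j3 (j4.div_const _), integral_div,
        integral_add (integrable_const _) (j2.const_mul 8), integral_add (integrable_const _) j2,
        integral_const_mul, integral_sq_gaussianReal]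
      norm_num [hD]
  have hsub := norm_integral_le_of_norm_le (μ := gauss n) (f := fun x =>
      ∫ z, (Wu (P x + z • e) - 1) * Wv (P x + z • e) ∂gaussianReal 0 1)
    (hDi.const_mul K) (Filter.Eventually.of_forall hinner)
  rw [Real.norm_eq_abs, integral_const_mul] at hsub
  refine hsub.trans ?_
  have i1 := integrable_dot_pow p 2
  have i2 := (integrable_dot_pow q 2).const_mul 2
  have i12 : Integrable (fun x : Fin n → ℝ => (x ⬝ᵥ p) ^ 2 + 2 * (x ⬝ᵥ q) ^ 2) (gauss n) :=
    i1.add i2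
  have i123 : Integrable (fun x : Fin n → ℝ => (x ⬝ᵥ p) ^ 2 + 2 * (x ⬝ᵥ q) ^ 2 + 8) (gauss n) :=
    i12.add (integrable_const _)
  simp only [hD]
  rw [integral_const_mul, integral_add (integrable_const _) (i123.div_const _), integral_div,
    integral_add i12 (integrable_const _), integral_add i1 i2,
    integral_const_mul, integral_dot_sq, integral_dot_sq]
  simp only [integral_const, probReal_univ, one_smul]
  have hpp : p ⬝ᵥ p ≤ 1 := by
    rw [hp, (abs_dot_le hv (Or.inr he)).2]; nlinarith [sq_nonneg (v ⬝ᵥ e)]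
  have hqq : q ⬝ᵥ q ≤ 1 := by
    have : q ⬝ᵥ q = (v - b • f) ⬝ᵥ (v - b • f) - ((v - b • f) ⬝ᵥ e) ^ 2 := by
      simp only [hq, sub_dotProduct, dotProduct_sub, smul_dotProduct, dotProduct_smul,
        smul_eq_mul, he, dotProduct_comm e v, dotProduct_comm e f]
      ring
    rw [this, hvar]
    nlinarith [sq_nonneg b, sq_nonneg ((v - b • f) ⬝ᵥ e)]
  calc K * (K * σ * (2 + (p ⬝ᵥ p + 2 * (q ⬝ᵥ q) + 8) / (2 * (T - 1))))
      ≤ K * (K * σ * (2 + 12 / (2 * (T - 1)))) := by gcongr; linarith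
    _ = _ := by field_simp; ring

end Weight

theorem kernel_bounds {T : ℝ} (hT : 1 < T) {δ : ℝ} (hδ : 0 < δ) :
    ∃ η R M C : ℝ, 0 < η ∧ η < 1 ∧ 0 ≤ R ∧ 1 ≤ M ∧ 0 ≤ C ∧
      (∀ (n : ℕ) (u e : Fin n → ℝ), u ⬝ᵥ u = 1 → (e = 0 ∨ e ⬝ᵥ e = 1) →
        (∀ x, η ≤ weight T η R u e x ∧ weight T η R u e x ≤ M) ∧
        Continuous (weight T η R u e) ∧
        ∫ x, weight T η R u e x ∂gauss n = 1 ∧
        Integrable (fun x => weight T η R u e x * logGain T η R u e x) (gauss n) ∧
        -(Real.log (2 * Real.pi * T)) / 2 - (1 - (u ⬝ᵥ e) ^ 2) / (2 * T) - δ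
          ≤ ∫ x, weight T η R u e x * logGain T η R u e x ∂gauss n ∧
        Integrable (fun x => logGain T η R u e x ^ 2) (gauss n) ∧
        ∫ x, logGain T η R u e x ^ 2 ∂gauss n ≤ C) ∧
      ∀ (n : ℕ) (u e v f : Fin n → ℝ) (σ : ℝ), u ⬝ᵥ u = 1 → v ⬝ᵥ v = 1 →
        (e = 0 ∨ e ⬝ᵥ e = 1) → (f = 0 ∨ f ⬝ᵥ f = 1) → |e ⬝ᵥ v| ≤ σ → |e ⬝ᵥ f| ≤ σ →
        |∫ x, weight T η R u e x * weight T η R v f x ∂gauss n - 1| ≤ C * σ := by
  set M4 := ∫ y, y ^ 4 ∂gaussianReal 0 1 with hM4
  have hM40 : 0 ≤ M4 := integral_nonneg fun y => by positivity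
  set η := min (1 / 2) ((δ / 10) ^ 2)
  have hη : 0 < η := lt_min (by norm_num) (by positivity)
  have hη1 : η < 1 := (min_le_left _ _).trans_lt (by norm_num)
  have hs : √η ≤ δ / 10 := (Real.sqrt_le_sqrt (min_le_right _ _)).trans_eq (sqrt_sq (by positivity))
  have hηs : η ≤ √η := Real.le_sqrt_of_sq_le (by nlinarith)
  have hlog : η * |Real.log η| ≤ 2 * √η := by
    have h0 : 0 < √η := sqrt_pos.2 hη
    have h1 := log_le_sub_one_of_pos (inv_pos.2 h0)
    rw [log_inv, log_sqrt hη.le] at h1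
    rw [abs_of_neg (log_neg hη hη1)]
    have h2 := mul_le_mul_of_nonneg_left (show -Real.log η ≤ 2 * (√η)⁻¹ by linarith) hη.le
    calc η * -Real.log η ≤ η * (2 * (√η)⁻¹) := h2
      _ = 2 * (√η * √η * (√η)⁻¹) := by rw [mul_self_sqrt hη.le]; ring
      _ = 2 * √η := by rw [mul_inv_cancel_right₀ h0.ne']
  set R := max 1 √(2 * (|Real.log η| + M4) / δ) with hR
  have hR0 : 0 < R := zero_lt_one.trans_le (le_max_left _ _)
  have hR2 : (|Real.log η| + M4) / R ^ 2 ≤ δ / 2 := by
    have h : 2 * (|Real.log η| + M4) / δ ≤ R ^ 2 := by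
      rw [← sq_sqrt (show 0 ≤ 2 * (|Real.log η| + M4) / δ by positivity)]
      exact pow_le_pow_left₀ (sqrt_nonneg _) (le_max_right _ _) 2
    rw [div_le_iff₀ hδ] at h
    rw [div_le_iff₀ (by positivity)]
    linarith
  have hT1 : 0 < T - 1 := by linarith
  refine ⟨η, R, 1 + quotBound T R, max (2 * gainConst T η R ^ 2 + M4)
    ((1 + quotBound T R) ^ 2 * (2 + 6 / (T - 1))), hη, hη1, hR0.le,
    by linarith [one_le_quotBound (R := R) hT],
    le_max_of_le_right (by positivity), fun n u e hu he => ?_,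
    fun n u e v f σ hu hv he hf hev hef => ?_⟩
  · obtain ⟨-, hG, hGb⟩ := logGain_facts (R := R) hT hη hη1.le hu he
    obtain ⟨hwi, hwb⟩ := mean_gain hT hη hη1.le hR0 hu he
    exact ⟨fun x => ⟨(weight_mem hT hη hη1.le hu he x).1, (weight_mem hT hη hη1.le hu he x).2.1⟩,
      continuous_weight (by linarith) u e, mean_weight hT hη hη1.le hu he, hwi,
      le_trans (by linarith) hwb, hG, hGb.trans (le_max_left _ _)⟩
  · exact (pair_corr hT hη hη1.le hu hv he hf hev hef).trans
      (mul_le_mul_of_nonneg_right (le_max_right _ _) ((abs_nonneg _).trans hev))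

end Vale.Agent.P237.Asym
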