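import Vale.Agent.P237.Asym.Defs

/-!
P237: a weak regularity lemma for isotropic finite systems of unit vectors.
-/

namespace Vale.Agent.P237.Asym

open Finset Matrix Vale.Agent.P237.Facets

theorem isCompact_hullL {n : ℕ} (L : ℝ) (B : Finset (Fin n → ℝ)) : IsCompact (hullL L B) := by
  classical
  have hK : IsCompact {s : {b // b ∈ B} → ℝ | ∑ b, |s b| ≤ L} := by
    refine (isCompact_univ_pi fun _ : {b // b ∈ B} => isCompact_Icc (a := -L) (b := L)).of_isClosed_subset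
      (isClosed_le (by fun_prop) continuous_const) fun s hs b _ => ?_
    have h := (single_le_sum (f := fun b => |s b|) (fun b _ => abs_nonneg (s b)) (mem_univ b)).trans hs
    exact ⟨(abs_le.1 h).1, (abs_le.1 h).2⟩
  have he : hullL L B =
      (fun s : {b // b ∈ B} → ℝ => ∑ b, s b • b.1) '' {s | ∑ b, |s b| ≤ L} := by
    ext x
    constructor
    · rintro ⟨t, ht, rfl⟩
      refine ⟨fun b => t b.1, ?_, sum_coe_sort B fun b => t b • b⟩
      simpa only [Set.mem_ofPred_eq, sum_coe_sort B fun b => |t b|] using ht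
    · rintro ⟨s, hs, rfl⟩
      refine ⟨fun b => if h : b ∈ B then s ⟨b, h⟩ else 0, ?_, ?_⟩
      · rw [← sum_coe_sort B]
        simpa using hs
      · dsimp only
        rw [← sum_coe_sort B]
        simp
  rw [he]
  exact hK.image (by fun_prop)

theorem zero_mem_hullL {n : ℕ} {L : ℝ} (hL : 0 ≤ L) (B : Finset (Fin n → ℝ)) :
    (0 : Fin n → ℝ) ∈ hullL L B := ⟨0, by simpa using hL, by simp⟩

theorem smul_mem_hullL {n : ℕ} {L L' : ℝ} {B : Finset (Fin n → ℝ)} {x : Fin n → ℝ} (τ : ℝ)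
    (hx : x ∈ hullL L B) (h : |τ| * L ≤ L') : τ • x ∈ hullL L' B := by
  obtain ⟨t, ht, rfl⟩ := hx
  refine ⟨fun b => τ * t b, le_trans ?_ h, by simp [smul_sum, smul_smul]⟩
  simp only [abs_mul, ← mul_sum]
  exact mul_le_mul_of_nonneg_left ht (abs_nonneg τ)

theorem add_mem_hullL {n : ℕ} {L L' : ℝ} {B : Finset (Fin n → ℝ)} {x y : Fin n → ℝ}
    (hx : x ∈ hullL L B) (hy : y ∈ hullL L' B) : x + y ∈ hullL (L + L') B := by
  obtain ⟨t, ht, rfl⟩ := hx
  obtain ⟨s, hs, rfl⟩ := hy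
  refine ⟨fun b => t b + s b, ?_, by simp [add_smul, sum_add_distrib]⟩
  exact (sum_le_sum fun b _ => abs_add_le (t b) (s b)).trans
    (by rw [sum_add_distrib]; exact add_le_add ht hs)

theorem hullL_subset {n : ℕ} {L L' : ℝ} {B B' : Finset (Fin n → ℝ)} (h : B ⊆ B') (hL : L ≤ L') :
    hullL L B ⊆ hullL L' B' := by
  classical
  rintro x ⟨t, ht, rfl⟩
  refine ⟨fun b => if b ∈ B then t b else 0, le_trans (le_of_eq ?_) (ht.trans hL), ?_⟩
  · simp only [apply_ite (fun r : ℝ => |r|), abs_zero, sum_ite_mem, inter_eq_right.2 h]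
  · simp only [ite_smul, zero_smul, sum_ite_mem, inter_eq_right.2 h]

theorem mem_hullL_of_mem {n : ℕ} {B : Finset (Fin n → ℝ)} {v : Fin n → ℝ} (hv : v ∈ B) :
    v ∈ hullL 1 B := by
  classical
  refine ⟨fun b => if b = v then 1 else 0, ?_, ?_⟩
  · simp [apply_ite (fun r : ℝ => |r|), hv]
  · simp [ite_smul, hv]

open Classical in
/-- A nearest point of `hullL L B` to `u`. -/
noncomputable def near {n : ℕ} (L : ℝ) (B : Finset (Fin n → ℝ)) (u : Fin n → ℝ) : Fin n → ℝ :=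
  if h : ∃ a ∈ hullL L B, ∀ x ∈ hullL L B, (u - a) ⬝ᵥ (u - a) ≤ (u - x) ⬝ᵥ (u - x) then h.choose
  else 0

/-- The squared distance from `u` to `hullL L B`. -/
noncomputable def gap {n : ℕ} (L : ℝ) (B : Finset (Fin n → ℝ)) (u : Fin n → ℝ) : ℝ :=
  (u - near L B u) ⬝ᵥ (u - near L B u)

theorem near_spec {n : ℕ} {L : ℝ} (hL : 0 ≤ L) (B : Finset (Fin n → ℝ)) (u : Fin n → ℝ) :
    near L B u ∈ hullL L B ∧ ∀ x ∈ hullL L B, gap L B u ≤ (u - x) ⬝ᵥ (u - x) := by
  classical
  have h : ∃ a ∈ hullL L B, ∀ x ∈ hullL L B, (u - a) ⬝ᵥ (u - a) ≤ (u - x) ⬝ᵥ (u - x) :=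
    (isCompact_hullL L B).exists_isMinOn ⟨0, zero_mem_hullL hL B⟩
      (f := fun x => (u - x) ⬝ᵥ (u - x)) (by fun_prop)
  unfold gap near
  rw [dif_pos h]
  exact h.choose_spec

theorem dot_self_nonneg' {n : ℕ} (x : Fin n → ℝ) : 0 ≤ x ⬝ᵥ x :=
  sum_nonneg fun _ _ => mul_self_nonneg _

theorem gap_nonneg {n : ℕ} (L : ℝ) (B : Finset (Fin n → ℝ)) (u : Fin n → ℝ) : 0 ≤ gap L B u :=
  dot_self_nonneg' _

theorem gap_anti {n : ℕ} {L L' : ℝ} {B B' : Finset (Fin n → ℝ)} (hL : 0 ≤ L) (h : L ≤ L')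
    (hB : B ⊆ B') (u : Fin n → ℝ) : gap L' B' u ≤ gap L B u :=
  (near_spec (hL.trans h) B' u).2 _ (hullL_subset hB h (near_spec hL B u).1)

theorem gap_le_one {n : ℕ} {L : ℝ} (hL : 0 ≤ L) (B : Finset (Fin n → ℝ)) {u : Fin n → ℝ}
    (hu : u ⬝ᵥ u = 1) : gap L B u ≤ 1 := by
  simpa [hu] using (near_spec hL B u).2 0 (zero_mem_hullL hL B)

/-- The nearest point condition on a symmetric convex set. -/
theorem dot_le_near {n : ℕ} {L : ℝ} (hL : 0 ≤ L) (B : Finset (Fin n → ℝ)) (u : Fin n → ℝ)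
    {x : Fin n → ℝ} (hx : x ∈ hullL L B) :
    |(u - near L B u) ⬝ᵥ x| ≤ (u - near L B u) ⬝ᵥ near L B u := by
  set a := near L B u with ha
  have key : ∀ x ∈ hullL L B, (u - a) ⬝ᵥ x ≤ (u - a) ⬝ᵥ a := by
    intro x hx
    by_contra hc
    rw [not_le] at hc
    set d := (u - a) ⬝ᵥ x - (u - a) ⬝ᵥ a with hd
    set Q := (x - a) ⬝ᵥ (x - a) with hQ
    have hQ0 : 0 ≤ Q := dot_self_nonneg' _
    have hd0 : 0 < d := sub_pos.2 hc
    set τ := min 1 (d / (Q + 1)) with hτ
    have hτ0 : 0 < τ := lt_min one_pos (by positivity)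
    have hτ1 : τ ≤ 1 := min_le_left _ _
    have hτd : τ * (Q + 1) ≤ d := (le_div_iff₀ (by positivity)).1 (min_le_right _ _)
    have hm : (1 - τ) • a + τ • x ∈ hullL L B := by
      have := add_mem_hullL (smul_mem_hullL (L' := (1 - τ) * L) (1 - τ) (near_spec hL B u).1
        (le_of_eq (by rw [abs_of_nonneg (by linarith)])))
        (smul_mem_hullL (L' := τ * L) τ hx (le_of_eq (by rw [abs_of_pos hτ0])))
      rwa [← add_mul, sub_add_cancel, one_mul] at this
    have h := (near_spec hL B u).2 _ hm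
    rw [show u - ((1 - τ) • a + τ • x) = (u - a) - τ • (x - a) by module] at h
    simp only [gap, ← ha, sub_dotProduct, dotProduct_sub, smul_dotProduct, dotProduct_smul,
      smul_eq_mul] at h
    simp only [hd, hQ, sub_dotProduct, dotProduct_sub] at hd0 hτd hQ0
    nlinarith [dotProduct_comm u a, dotProduct_comm u x, dotProduct_comm a x]
  refine abs_le.2 ⟨?_, key x hx⟩
  have := key _ (smul_mem_hullL (L' := L) (-1) hx (by simp))
  rw [neg_one_smul, dotProduct_neg] at this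
  linarith

/-- Halving the hull costs at least the inner product with the nearest point. -/
theorem gap_half {n : ℕ} {L : ℝ} (hL : 0 ≤ L) (B : Finset (Fin n → ℝ)) (u : Fin n → ℝ) :
    gap L B u + (u - near L B u) ⬝ᵥ near L B u ≤ gap (L / 2) B u := by
  obtain ⟨hx, -⟩ := near_spec (by linarith : 0 ≤ L / 2) B u
  set x := near (L / 2) B u with hxd
  set a := near L B u with ha
  have h := le_of_abs_le (dot_le_near hL B u
    (smul_mem_hullL (L' := L) 2 hx (le_of_eq (by rw [abs_two]; ring))))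
  rw [← ha, dotProduct_smul, smul_eq_mul] at h
  have hn := dot_self_nonneg' (a - x)
  simp only [gap, ← ha, ← hxd, sub_dotProduct, dotProduct_sub] at *
  linarith [dotProduct_comm u a, dotProduct_comm u x, dotProduct_comm a x]

/-- Adding a vector seen by the residual improves the distance. -/
theorem gap_hit {n : ℕ} {L σ : ℝ} {B B' : Finset (Fin n → ℝ)} {u v : Fin n → ℝ} (hL : 1 ≤ L)
    (hu : u ⬝ᵥ u = 1) (hv : v ⬝ᵥ v = 1) (hB : B ⊆ B') (hvB : v ∈ B') (hσ : 0 ≤ σ)
    (hh : σ < |(u - near L B u) ⬝ᵥ v|) : gap (2 * L) B' u ≤ gap L B u - σ ^ 2 := by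
  set a := near L B u with ha
  set τ := (u - a) ⬝ᵥ v with hτ
  have hg : (u - a) ⬝ᵥ (u - a) ≤ 1 := gap_le_one (by linarith) B hu
  have hτ1 : |τ| ≤ 1 := by
    rw [← sq_le_one_iff_abs_le_one]
    have h := sum_mul_sq_le_sq_mul_sq univ (u - a) v
    simp only [dotProduct, pow_two] at hg hv hτ h ⊢
    rw [← hτ, hv] at h
    nlinarith
  have hm : a + τ • v ∈ hullL (2 * L) B' := by
    rw [two_mul]
    exact add_mem_hullL (hullL_subset hB le_rfl (near_spec (by linarith) B u).1)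
      (smul_mem_hullL τ (mem_hullL_of_mem hvB) (by linarith))
  refine ((near_spec (by linarith) B' u).2 _ hm).trans ?_
  rw [show u - (a + τ • v) = (u - a) - τ • v by module]
  have e : ((u - a) - τ • v) ⬝ᵥ ((u - a) - τ • v) = (u - a) ⬝ᵥ (u - a) - τ ^ 2 := by
    rw [sub_dotProduct (u - a) (τ • v), dotProduct_sub (u - a) (u - a) (τ • v),
      dotProduct_sub (τ • v) (u - a) (τ • v), smul_dotProduct, smul_dotProduct, dotProduct_smul,
      dotProduct_smul, hv, dotProduct_comm v (u - a), ← hτ]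
    simp only [smul_eq_mul]
    ring
  rw [e]
  have hs : σ ^ 2 ≤ τ ^ 2 := by rw [← sq_abs τ]; exact pow_le_pow_left₀ hσ hh.le 2
  unfold gap
  rw [← ha]
  linarith

theorem sum_sq_dot {n N : ℕ} {c : Fin N → ℝ} {u : Fin N → Fin n → ℝ} (hiso : Facets.gram c u = 1)
    (x : Fin n → ℝ) : ∑ i, c i * (x ⬝ᵥ u i) ^ 2 = x ⬝ᵥ x := by
  have h := congrArg (fun M : Matrix (Fin n) (Fin n) ℝ => x ⬝ᵥ M *ᵥ x) hiso
  simp only [Facets.gram, one_mulVec, sum_mulVec, dotProduct_sum, smul_mulVec, dotProduct_smul,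
    vecMulVec_mulVec, op_smul_eq_smul, smul_eq_mul] at h
  rw [← h]
  exact sum_congr rfl fun i _ => by rw [dotProduct_comm (u i) x]; ring

theorem sum_weights {n N : ℕ} {c : Fin N → ℝ} {u : Fin N → Fin n → ℝ}
    (hu : ∀ i, u i ⬝ᵥ u i = 1) (hiso : Facets.gram c u = 1) : ∑ i, c i = n := by
  have h := congrArg Matrix.trace hiso
  simpa [Facets.gram, trace_sum, trace_smul, trace_vecMulVec, hu] using h

/-- The chance of `n` samples hitting is at least `nq/(1+nq)`. -/
theorem hit_chance {q : ℝ} (hq : 0 ≤ q) (hq1 : q ≤ 1) (n : ℕ) :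
    n * q / (1 + n * q) ≤ 1 - (1 - q) ^ n := by
  have h1 : 1 + (n : ℝ) * q ≤ (1 + q) ^ n := one_add_mul_le_pow (by linarith) n
  have h2 : (1 - q) ^ n * (1 + q) ^ n ≤ 1 := by
    rw [← mul_pow]
    exact pow_le_one₀ (by nlinarith) (by nlinarith)
  have h3 : 0 ≤ (1 - q) ^ n := pow_nonneg (by linarith) n
  rw [div_le_iff₀ (by positivity)]
  nlinarith [mul_le_mul_of_nonneg_left h1 h3]

open Classical in
/-- Weak regularity: a small dictionary `B` explains the directions `u i` up to residuals which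
meet few of the directions. -/
theorem exists_regular {n N : ℕ} (hn : 1 ≤ n) (c : Fin N → ℝ) (u : Fin N → Fin n → ℝ)
    (hc : ∀ i, 0 ≤ c i) (hu : ∀ i, u i ⬝ᵥ u i = 1) (hiso : Facets.gram c u = 1)
    {σ : ℝ} (hσ : 0 < σ) (hσ1 : σ ≤ 1) {m : ℕ} (hm : 1 ≤ m) :
    ∃ (B : Finset (Fin n → ℝ)) (L : ℝ) (a : Fin N → Fin n → ℝ),
      1 ≤ L ∧ L ≤ 2 ^ (m + 2) ∧ B.card ≤ (m + 1) * n ∧ (∀ b ∈ B, b ⬝ᵥ b = 1) ∧
      (∀ i, a i ∈ hullL L B) ∧ (∀ i, (u i - a i) ⬝ᵥ (u i - a i) ≤ 1) ∧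
      (∀ i, ∀ x ∈ hullL L B, |(u i - a i) ⬝ᵥ x| ≤ (u i - a i) ⬝ᵥ a i) ∧
      ∑ i, c i * ((u i - a i) ⬝ᵥ a i) ≤ n * (4 / m) ∧
      ∑ i, ∑ j, (if σ < |(u i - a i) ⬝ᵥ u j| then c i * c j else 0) ≤ n * (8 / (m * σ ^ 4)) := by
  set T : ℝ → Finset (Fin n → ℝ) → ℝ := fun L B => ∑ i, c i * gap L B (u i) with hT
  have T_nonneg : ∀ L B, 0 ≤ T L B := fun L B =>
    sum_nonneg fun i _ => mul_nonneg (hc i) (gap_nonneg _ _ _)
  have T_le : ∀ L B, 0 ≤ L → T L B ≤ n := fun L B hL => by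
    rw [← sum_weights hu hiso]
    exact sum_le_sum fun i _ => mul_le_of_le_one_right (hc i) (gap_le_one hL B (hu i))
  have T_anti : ∀ L L' B B', 0 ≤ L → L ≤ L' → B ⊆ B' → T L' B' ≤ T L B := fun L L' B B' h1 h2 h3 =>
    sum_le_sum fun i _ => mul_le_mul_of_nonneg_left (gap_anti h1 h2 h3 _) (hc i)
  set cand : ℕ → Finset (Finset (Fin n → ℝ)) := fun j =>
    (univ.image u).powerset.filter fun B => B.card ≤ j * n with hcand
  have hmem : ∀ j B, B ∈ cand j ↔ B ⊆ univ.image u ∧ B.card ≤ j * n := by simp [cand]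
  have hmin : ∀ j, ∃ B ∈ cand j, ∀ B' ∈ cand j, T (2 ^ j) B ≤ T (2 ^ j) B' := fun j =>
    exists_min_image _ _ ⟨∅, by simp [hmem]⟩
  choose Bs hBs hBmin using hmin
  set Ψ : ℕ → ℝ := fun j => T (2 ^ j) (Bs j) with hΨ
  have hsum : ∑ j ∈ range m, (Ψ j - Ψ (j + 2)) ≤ 2 * n := by
    have e : ∀ k, ∑ j ∈ range k, (Ψ j - Ψ (j + 2)) = Ψ 0 + Ψ 1 - Ψ k - Ψ (k + 1) := by
      intro k
      induction k with
      | zero => simp
      | succ k ih => rw [sum_range_succ, ih]; ring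
    rw [e]
    have h0 := T_le (2 ^ 0) (Bs 0) (by positivity)
    have h1 := T_le (2 ^ 1) (Bs 1) (by positivity)
    have h2 := T_nonneg (2 ^ m) (Bs m)
    have h3 := T_nonneg (2 ^ (m + 1)) (Bs (m + 1))
    simp only [Ψ]
    linarith
  have hm0 : (0 : ℝ) < m := by exact_mod_cast hm
  obtain ⟨j, hj, hdrop⟩ : ∃ j ∈ range m, Ψ j - Ψ (j + 2) ≤ 2 * n / m := by
    refine exists_le_of_sum_le (by simpa using (by omega : m ≠ 0)) ?_
    rw [sum_const, card_range, nsmul_eq_mul, mul_div_cancel₀ _ hm0.ne']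
    exact hsum
  set L : ℝ := 2 ^ (j + 1) with hL
  set B := Bs j with hB
  have hL1 : 1 ≤ L := one_le_pow₀ one_le_two
  obtain ⟨hBu, hBcard⟩ := (hmem j B).1 (hBs j)
  have hΨj : T (L / 2) B = Ψ j := by
    simp only [Ψ, hL, pow_succ, mul_div_cancel_right₀ _ (two_ne_zero (α := ℝ)), hB]
  have hΨ2 : ∀ B' ∈ cand (j + 2), Ψ (j + 2) ≤ T (2 * L) B' := fun B' h => by
    simpa [Ψ, hL, pow_succ, mul_comm, mul_left_comm] using hBmin (j + 2) B' h
  have hjm : j < m := mem_range.1 hj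
  refine ⟨B, L, fun i => near L B (u i), hL1, pow_le_pow_right₀ one_le_two (by omega),
    hBcard.trans (Nat.mul_le_mul_right n (by omega)), fun b hb => ?_,
    fun i => (near_spec (by linarith) B _).1, fun i => gap_le_one (by linarith) B (hu i),
    fun i x hx => dot_le_near (by linarith) B _ hx, ?_, ?_⟩
  · obtain ⟨i, -, rfl⟩ := mem_image.1 (hBu hb)
    exact hu i
  · have h1 : T L B + ∑ i, c i * ((u i - near L B (u i)) ⬝ᵥ near L B (u i)) ≤ T (L / 2) B := by
      rw [hT, ← sum_add_distrib]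
      exact sum_le_sum fun i _ => by
        rw [← mul_add]
        exact mul_le_mul_of_nonneg_left (gap_half (by linarith) B (u i)) (hc i)
    have h2 : Ψ (j + 2) ≤ T L B :=
      (hΨ2 B ((hmem _ _).2 ⟨hBu, hBcard.trans (Nat.mul_le_mul_right n (by omega))⟩)).trans
        (T_anti _ _ _ _ (by linarith) (by linarith) subset_rfl)
    have h3 : 2 * (n : ℝ) / m ≤ n * (4 / m) := by
      rw [← mul_div_assoc]; exact div_le_div_of_nonneg_right (by linarith [(n.cast_nonneg (α := ℝ))]) hm0.le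
    linarith
  · set hit : Fin N → Fin N → Prop := fun i k => σ < |(u i - near L B (u i)) ⬝ᵥ u k| with hhit
    set p : Fin N → ℝ := fun i => c i / n with hp
    have hn0 : (0 : ℝ) < n := by exact_mod_cast hn
    have hp0 : ∀ i, 0 ≤ p i := fun i => div_nonneg (hc i) hn0.le
    have hp1 : ∑ i, p i = 1 := by
      rw [← sum_div, sum_weights hu hiso, div_self hn0.ne']
    have hstep : ∀ s : Fin n → Fin N,
        σ ^ 2 * ∑ i, c i * (1 - ∏ k, if hit i (s k) then (0 : ℝ) else 1) ≤ 2 * n / m := by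
      intro s
      set B' := B ∪ univ.image (u ∘ s) with hB'
      have hB'c : B' ∈ cand (j + 2) := by
        refine (hmem _ _).2 ⟨union_subset hBu fun v hv => ?_, ?_⟩
        · obtain ⟨k, -, rfl⟩ := mem_image.1 hv
          exact mem_image_of_mem u (mem_univ _)
        · refine (card_union_le _ _).trans ?_
          have h := (card_image_le (s := univ) (f := u ∘ s)).trans_eq (Fintype.card_fin n)
          nlinarith [hBcard]
      have hg : σ ^ 2 * ∑ i, c i * (1 - ∏ k, if hit i (s k) then (0 : ℝ) else 1) ≤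
          T L B - T (2 * L) B' := by
        simp only [hT, mul_sum, ← sum_sub_distrib, ← mul_sub]
        refine sum_le_sum fun i _ => ?_
        rw [mul_left_comm]
        refine mul_le_mul_of_nonneg_left ?_ (hc i)
        by_cases h : ∃ k, hit i (s k)
        · obtain ⟨k, hk⟩ := h
          rw [prod_eq_zero (mem_univ k) (by rw [if_pos hk]), sub_zero, mul_one]
          linarith [gap_hit hL1 (hu i) (hu (s k)) subset_union_left
            (mem_union_right B (mem_image_of_mem (u ∘ s) (mem_univ k))) hσ.le hk]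
        · push Not at h
          rw [prod_eq_one fun k _ => by rw [if_neg (h k)], sub_self, mul_zero]
          exact sub_nonneg.2 (gap_anti (by linarith) (by linarith) subset_union_left _)
      have h1 : T L B ≤ Ψ j := hΨj ▸ T_anti _ _ _ _ (by linarith) (by linarith) subset_rfl
      linarith [hΨ2 B' hB'c]
    set Q : Fin N → ℝ := fun i => ∑ k, if hit i k then c k else 0 with hQ
    have hQ0 : ∀ i, 0 ≤ Q i := fun i => sum_nonneg fun k _ => by
      split_ifs
      · exact hc k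
      · exact le_rfl
    have hQσ : ∀ i, Q i * σ ^ 2 ≤ 1 := fun i => by
      refine le_trans ?_ (gap_le_one (by linarith : (0 : ℝ) ≤ L) B (hu i))
      rw [gap, ← sum_sq_dot hiso, hQ, sum_mul]
      refine sum_le_sum fun k _ => ?_
      split_ifs with h
      · refine mul_le_mul_of_nonneg_left ?_ (hc k)
        rw [← sq_abs ((u i - near L B (u i)) ⬝ᵥ u k)]
        exact pow_le_pow_left₀ hσ.le h.le 2
      · rw [zero_mul]; exact mul_nonneg (hc k) (sq_nonneg _)
    have hprob : ∀ i, ∑ s : Fin n → Fin N, (∏ k, p (s k)) *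
        (1 - ∏ k, if hit i (s k) then (0 : ℝ) else 1) = 1 - (1 - Q i / n) ^ n := by
      intro i
      have e1 : 1 - Q i / n = ∑ k, p k * (if hit i k then (0 : ℝ) else 1) := by
        nth_rewrite 1 [← hp1]
        rw [hQ, sum_div, ← sum_sub_distrib]
        exact sum_congr rfl fun k _ => by split_ifs <;> simp [p]
      rw [e1, sum_pow', Fintype.piFinset_univ]
      simp only [mul_sub, mul_one, sum_sub_distrib, prod_mul_distrib]
      rw [← Fintype.piFinset_univ, ← sum_pow', hp1, one_pow]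
    have hbound : σ ^ 2 * ∑ i, c i * (1 - (1 - Q i / n) ^ n) ≤ 2 * n / m := by
      calc σ ^ 2 * ∑ i, c i * (1 - (1 - Q i / n) ^ n)
          = ∑ s : Fin n → Fin N, (∏ k, p (s k)) *
              (σ ^ 2 * ∑ i, c i * (1 - ∏ k, if hit i (s k) then (0 : ℝ) else 1)) := by
            simp only [← hprob, mul_sum]
            rw [sum_comm]
            exact sum_congr rfl fun s _ => sum_congr rfl fun i _ => by ring
        _ ≤ ∑ s : Fin n → Fin N, (∏ k, p (s k)) * (2 * n / m) :=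
            sum_le_sum fun s _ => mul_le_mul_of_nonneg_left (hstep s) (prod_nonneg fun k _ => hp0 _)
        _ = 2 * n / m := by
            rw [← sum_mul, ← Fintype.piFinset_univ, ← sum_pow', hp1, one_pow, one_mul]
    have hlow : σ ^ 2 / 2 * ∑ i, c i * Q i ≤ ∑ i, c i * (1 - (1 - Q i / n) ^ n) := by
      rw [mul_sum]
      refine sum_le_sum fun i _ => ?_
      rw [mul_left_comm]
      refine mul_le_mul_of_nonneg_left ?_ (hc i)
      have hq1 : Q i / n ≤ 1 := by
        rw [div_le_one hn0, ← sum_weights hu hiso]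
        exact sum_le_sum fun k _ => by
          split_ifs
          · exact le_rfl
          · exact hc k
      refine le_trans ?_ (hit_chance (div_nonneg (hQ0 i) hn0.le) hq1 n)
      have hQi := hQ0 i
      rw [mul_div_cancel₀ _ hn0.ne', le_div_iff₀ (by linarith)]
      have hs : σ ^ 2 ≤ 1 := pow_le_one₀ hσ.le hσ1
      nlinarith [hQσ i, hQ0 i, mul_nonneg (hQ0 i) (hQ0 i)]
    have e : ∑ i, ∑ k, (if σ < |(u i - near L B (u i)) ⬝ᵥ u k| then c i * c k else 0) =
        ∑ i, c i * Q i := by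
      simp only [hQ, hhit, mul_sum, mul_ite, mul_zero]
    rw [e, ← mul_div_assoc, le_div_iff₀ (by positivity)]
    have h5 := mul_le_mul_of_nonneg_left hlow (sq_nonneg σ)
    have h6 : σ ^ 2 * (σ ^ 2 / 2 * ∑ i, c i * Q i) * m ≤ 2 * n :=
      (le_div_iff₀ hm0).1 (h5.trans hbound)
    nlinarith

end Vale.Agent.P237.Asym
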