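import Vale.Agent.P237.Asym.Det
import Vale.Agent.P237.Asym.Entropy
import Vale.Agent.P237.Asym.GaussBasic
import Vale.Agent.P237.Asym.Kernel
import Vale.Agent.P237.Asym.Regular
import Vale.Agent.P237.Asym.Slab

/-!
For an isotropic system in high dimension: a lower bound for the zonotope and a test body, tied
by the mean squared residual of the system.
-/

namespace Vale.Agent.P237.Asym

open MeasureTheory Matrix ProbabilityTheory Finset
open Vale.Agent.P237.Facets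
open scoped Real NNReal

variable {n N : ℕ}

lemma sum_isotropic {c : Fin N → ℝ} {u : Fin N → Fin n → ℝ} (hiso : Facets.gram c u = 1)
    (x : Fin n → ℝ) : ∑ i, c i * (u i ⬝ᵥ x) * (u i ⬝ᵥ x) = x ⬝ᵥ x := by
  rw [← dot_gram, hiso, Matrix.one_mulVec]

lemma sum_isotropic_weights {c : Fin N → ℝ} {u : Fin N → Fin n → ℝ} (hu : ∀ i, u i ⬝ᵥ u i = 1)
    (hiso : Facets.gram c u = 1) : ∑ i, c i = n := by
  calc ∑ i, c i = ∑ i, ∑ k, c i * (u i ⬝ᵥ Pi.single k 1) * (u i ⬝ᵥ Pi.single k 1) := by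
        refine sum_congr rfl fun i _ => ?_
        have h : ∑ k, u i k * u i k = 1 := hu i
        simp only [dotProduct_single_one, mul_assoc, ← mul_sum, h, mul_one]
    _ = ∑ k : Fin n, (Pi.single k 1 : Fin n → ℝ) ⬝ᵥ Pi.single k 1 := by
        rw [sum_comm]; exact sum_congr rfl fun k _ => sum_isotropic hiso _
    _ = n := by simp

lemma mdens_pos {v : ℝ} (hv : 0 < v) (y : ℝ) : 0 < dens v y := by
  unfold dens; positivity

lemma mdens_le {v : ℝ} (hv : 0 < v) (y : ℝ) : dens v y ≤ 1 / √(2 * π * v) := by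
  unfold dens
  refine div_le_div_of_nonneg_right (Real.exp_le_one_iff.2 ?_) (Real.sqrt_nonneg _)
  exact div_nonpos_of_nonpos_of_nonneg (by nlinarith [sq_nonneg y]) (by linarith)

lemma mdens_continuous (v : ℝ) : Continuous (dens v) := by
  unfold dens; fun_prop

lemma mdens_eq_pdf {v : ℝ} (hv : 0 < v) : dens v = gaussianPDFReal 0 v.toNNReal := by
  funext y
  rw [gaussianPDFReal, dens, Real.coe_toNNReal _ hv.le, sub_zero, neg_div, inv_mul_eq_div]

lemma mdens_integral {v : ℝ} (hv : 0 < v) : Integrable (dens v) ∧ ∫ y, dens v y = 1 := by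
  rw [mdens_eq_pdf hv]
  exact ⟨integrable_gaussianPDFReal _ _,
    integral_gaussianPDFReal_eq_one _ (by simpa using hv)⟩

lemma mlog_dens {v : ℝ} (hv : 0 < v) (y : ℝ) :
    Real.log (dens v y) = -y ^ 2 / (2 * v) - Real.log √(2 * π * v) := by
  rw [dens, Real.log_div (Real.exp_ne_zero _) (by positivity), Real.log_exp]

lemma kern_props {T η b : ℝ} (hT : 1 < T) (hη : 0 < η) (hb : b ^ 2 ≤ 1) :
    Continuous (kern T η b) ∧ (∀ y, 0 < kern T η b y) ∧ Integrable (kern T η b) ∧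
      ∫ y, kern T η b y = 1 := by
  have hs : 0 < T - b ^ 2 := by linarith
  obtain ⟨i1, j1⟩ := mdens_integral hs
  obtain ⟨i2, j2⟩ := mdens_integral (show 0 < T by linarith)
  refine ⟨((mdens_continuous _).add (continuous_const.mul (mdens_continuous _))).div_const _,
    fun y => div_pos (add_pos (mdens_pos hs y) (mul_pos hη (mdens_pos (by linarith) y)))
      (by linarith), (i1.add (i2.const_mul η)).div_const _, ?_⟩
  simp only [kern]
  rw [integral_div, integral_add i1 (i2.const_mul η), integral_const_mul, j1, j2, mul_one,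
    div_self (by linarith)]

lemma abs_log_kern_le {T η : ℝ} (hT : 1 < T) (hη : 0 < η) :
    ∃ K : ℝ, ∀ b y : ℝ, b ^ 2 ≤ 1 → |Real.log (kern T η b y)| ≤ K * (1 + y ^ 2) := by
  set a : ℝ := Real.log η - Real.log √(2 * π * T) - Real.log (1 + η)
  set W : ℝ := (1 / √(2 * π * (T - 1)) + η * (1 / √(2 * π * T))) / (1 + η)
  refine ⟨|a| + 1 + |Real.log W|, fun b y hb => ?_⟩
  have hT0 : 0 < T := by linarith
  have hs : 0 < T - b ^ 2 := by linarith
  have h1 : η * dens T y / (1 + η) ≤ kern T η b y := by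
    refine div_le_div_of_nonneg_right ?_ (by linarith)
    linarith [mdens_pos hs y]
  have h2 : kern T η b y ≤ W := by
    refine div_le_div_of_nonneg_right (add_le_add ((mdens_le hs y).trans ?_)
      (mul_le_mul_of_nonneg_left (mdens_le hT0 y) hη.le)) (by linarith)
    refine one_div_le_one_div_of_le (by
      have : 0 < T - 1 := by linarith
      positivity) (Real.sqrt_le_sqrt ?_)
    exact mul_le_mul_of_nonneg_left (by linarith) (by positivity)
  have hpos : 0 < η * dens T y / (1 + η) :=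
    div_pos (mul_pos hη (mdens_pos hT0 y)) (by linarith)
  have hlow := Real.log_le_log hpos h1
  rw [Real.log_div (mul_pos hη (mdens_pos hT0 y)).ne' (by linarith),
    Real.log_mul hη.ne' (mdens_pos hT0 y).ne', mlog_dens hT0] at hlow
  have hup := Real.log_le_log (hpos.trans_le h1) h2
  have hy : -y ^ 2 ≤ -y ^ 2 / (2 * T) := by
    rw [le_div_iff₀ (by linarith)]
    nlinarith [sq_nonneg y]
  have k1 : 0 ≤ |a| * y ^ 2 := mul_nonneg (abs_nonneg _) (sq_nonneg y)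
  have k2 : 0 ≤ |Real.log W| * y ^ 2 := mul_nonneg (abs_nonneg _) (sq_nonneg y)
  refine abs_le.2 ⟨?_, ?_⟩
  · nlinarith [neg_abs_le a, abs_nonneg (Real.log W), sq_nonneg y]
  · nlinarith [le_abs_self (Real.log W), abs_nonneg a, sq_nonneg y]

/-- The determinant of a reweighted isotropic system between the obvious bounds. -/
lemma abs_logdet_le {c : Fin N → ℝ} {u : Fin N → Fin n → ℝ} (hc : ∀ i, 0 ≤ c i)
    (hu : ∀ i, u i ⬝ᵥ u i = 1) (hiso : Facets.gram c u = 1) {w : Fin N → ℝ} (hw : ∀ i, 0 < w i)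
    {W : ℝ} (hW0 : 0 ≤ W) (hW : ∀ i, w i ≤ W) :
    0 < (Facets.gram (fun i => c i * w i) u).det ∧
      |Real.log (Facets.gram (fun i => c i * w i) u).det| ≤ ∑ i, c i * |Real.log (w i)| + n * W := by
  obtain ⟨hpos, hlow⟩ := logdet_exp_ge c (fun i => Real.log (w i)) u hc hiso
  simp only [Real.exp_log (hw _)] at hpos hlow
  obtain ⟨μ, e, hon, heig, hdet, -, -⟩ := exists_eigen
    (gram_posSemidef (c := fun i => c i * w i) (fun i => mul_nonneg (hc i) (hw i).le) u).1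
  have hS : 0 ≤ ∑ i, c i * |Real.log (w i)| :=
    sum_nonneg fun i _ => mul_nonneg (hc i) (abs_nonneg _)
  have hnW : 0 ≤ (n : ℝ) * W := mul_nonneg (Nat.cast_nonneg n) hW0
  refine ⟨hpos, abs_le.2 ⟨?_, ?_⟩⟩
  · have h : -∑ i, c i * |Real.log (w i)| ≤ ∑ i, c i * Real.log (w i) * (u i ⬝ᵥ u i) := by
      rw [← sum_neg_distrib]
      refine sum_le_sum fun i _ => ?_
      rw [hu, mul_one, ← mul_neg]
      exact mul_le_mul_of_nonneg_left (neg_abs_le _) (hc i)
    linarith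
  · have hμ : ∀ k, μ k = ∑ i, c i * w i * (u i ⬝ᵥ e k) * (u i ⬝ᵥ e k) := fun k => by
      rw [← dot_gram (fun i => c i * w i), heig, dotProduct_smul, hon, if_pos rfl, smul_eq_mul,
        mul_one]
    have hμ0 : ∀ k, 0 ≤ μ k := fun k => by
      rw [hμ]
      exact sum_nonneg fun i _ => by
        rw [mul_assoc]; exact mul_nonneg (mul_nonneg (hc i) (hw i).le) (mul_self_nonneg _)
    have hμW : ∀ k, μ k ≤ W := fun k => by
      rw [hμ]
      calc ∑ i, c i * w i * (u i ⬝ᵥ e k) * (u i ⬝ᵥ e k)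
          ≤ ∑ i, W * (c i * (u i ⬝ᵥ e k) * (u i ⬝ᵥ e k)) := by
            refine sum_le_sum fun i _ => ?_
            calc c i * w i * (u i ⬝ᵥ e k) * (u i ⬝ᵥ e k)
                = w i * (c i * ((u i ⬝ᵥ e k) * (u i ⬝ᵥ e k))) := by ring
              _ ≤ W * (c i * ((u i ⬝ᵥ e k) * (u i ⬝ᵥ e k))) :=
                  mul_le_mul_of_nonneg_right (hW i) (mul_nonneg (hc i) (mul_self_nonneg _))
              _ = _ := by ring
        _ = W := by rw [← mul_sum, sum_isotropic hiso, hon, if_pos rfl, mul_one]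
    rw [hdet] at hpos ⊢
    rw [Real.log_prod fun k _ => ?_]
    swap
    · intro h0
      exact hpos.ne' (prod_eq_zero (mem_univ k) h0)
    calc ∑ k, Real.log (μ k) ≤ ∑ _k : Fin n, W := by
          refine sum_le_sum fun k _ => ?_
          rcases eq_or_lt_of_le (hμ0 k) with h | h
          · rw [← h, Real.log_zero]; exact hW0
          · linarith [Real.log_le_sub_one_of_pos h, hμW k]
      _ ≤ ∑ i, c i * |Real.log (w i)| + n * W := by simp; linarith

lemma _root_.MeasureTheory.Integrable.diff {α : Type*} {m : MeasurableSpace α} {μ : Measure α}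
    {f g : α → ℝ} (hf : Integrable f μ) (hg : Integrable g μ) :
    Integrable (fun x => f x - g x) μ :=
  hf.sub hg

lemma integrable_logdet_kern {T η : ℝ} (hT : 1 < T) (hη : 0 < η) {c : Fin N → ℝ}
    {u : Fin N → Fin n → ℝ} (hc : ∀ i, 0 ≤ c i) (hu : ∀ i, u i ⬝ᵥ u i = 1)
    (hiso : Facets.gram c u = 1) (b : Fin N → ℝ) (hb : ∀ i, b i ^ 2 ≤ 1) :
    Integrable (fun x => Real.log (Facets.gram
      (fun i => c i * kern T η (b i) (x ⬝ᵥ u i)) u).det) (gauss n) := by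
  have hk := fun i => kern_props hT hη (hb i)
  have hwc : ∀ i, Continuous fun x : Fin n → ℝ => kern T η (b i) (x ⬝ᵥ u i) := fun i =>
    (hk i).1.comp (continuous_dot_left (u i))
  obtain ⟨K, hK⟩ := abs_log_kern_le hT hη
  set W : ℝ := (1 / √(2 * π * (T - 1)) + η * (1 / √(2 * π * T))) / (1 + η) with hWdef
  have hW0 : 0 ≤ W := by positivity
  have hT1 : 0 < T - 1 := by linarith
  have hW : ∀ (x : Fin n → ℝ) i, kern T η (b i) (x ⬝ᵥ u i) ≤ W := fun x i => by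
    refine div_le_div_of_nonneg_right (add_le_add ((mdens_le (by linarith [hb i]) _).trans ?_)
      (mul_le_mul_of_nonneg_left (mdens_le (by linarith) _) hη.le)) (by linarith)
    refine one_div_le_one_div_of_le (by positivity) (Real.sqrt_le_sqrt ?_)
    exact mul_le_mul_of_nonneg_left (by linarith [hb i]) (by positivity)
  have hdet := fun x : Fin n → ℝ => abs_logdet_le hc hu hiso
    (w := fun i => kern T η (b i) (x ⬝ᵥ u i)) (fun i => (hk i).2.1 _) hW0 (hW x)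
  have hg : Integrable (fun x => ∑ i, c i * K * (1 + (x ⬝ᵥ u i) ^ 2)) (gauss n) :=
    integrable_finsetSum _ fun i _ =>
      ((integrable_const (1 : ℝ)).fun_add (integrable_dot_pow (u i) 2)).const_mul (c i * K)
  have hcont : Continuous fun x => Real.log (Facets.gram
      (fun i => c i * kern T η (b i) (x ⬝ᵥ u i)) u).det := by
    refine Continuous.log (Continuous.matrix_det ?_) fun x => (hdet x).1.ne'
    unfold Facets.gram
    exact continuous_finsetSum _ fun i _ => ((continuous_const.mul (hwc i)).smul continuous_const)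
  refine (hg.fun_add (integrable_const (n * W))).mono' hcont.aestronglyMeasurable
    (Filter.Eventually.of_forall fun x => ?_)
  refine (hdet x).2.trans (add_le_add (sum_le_sum fun i _ => ?_) le_rfl)
  rw [mul_assoc]
  exact mul_le_mul_of_nonneg_left (hK _ _ (hb i)) (hc i)

lemma double_sum_nonneg (a : Fin N → ℝ) (u : Fin N → Fin n → ℝ) :
    0 ≤ ∑ i, ∑ j, a i * a j * (u i ⬝ᵥ u j) ^ 2 := by
  have h : ∑ i, ∑ j, a i * a j * (u i ⬝ᵥ u j) ^ 2
      = ∑ k, ∑ l, (∑ i, a i * u i k * u i l) ^ 2 := by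
    simp only [sq, dotProduct, sum_mul_sum]
    simp only [mul_sum]
    rw [sum_congr rfl fun i _ => sum_comm, sum_comm]
    refine sum_congr rfl fun k _ => ?_
    rw [sum_congr rfl fun i _ => sum_comm, sum_comm]
    exact sum_congr rfl fun l _ => sum_congr rfl fun i _ => sum_congr rfl fun j _ => by ring
  rw [h]
  exact sum_nonneg fun k _ => sum_nonneg fun l _ => sq_nonneg _

/-- The determinant bound with the root of a product split by the arithmetic-geometric mean. -/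
lemma logdet_linear (c r β : Fin N → ℝ) (u : Fin N → Fin n → ℝ) {r₀ M l : ℝ}
    (hc : ∀ i, 0 ≤ c i) (hu : ∀ i, u i ⬝ᵥ u i = 1) (hiso : Facets.gram c u = 1) (hr₀ : 0 < r₀)
    (hM : 0 ≤ M) (hl : 0 < l) (hr : ∀ i, r₀ ≤ r i ∧ r i ≤ M) :
    ∑ i, c i * (r i - 1 + r i * β i)
      - (∑ i, ∑ j, c i * c j * (r i - 1) * (r j - 1) * (u i ⬝ᵥ u j) ^ 2) / r₀
      - M / r₀ * (l / 2 * ∑ i, c i * β i ^ 2
          + (∑ i, ∑ j, c i * c j * (r i - 1) * (r j - 1) * (u i ⬝ᵥ u j) ^ 2) / (2 * l))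
      ≤ Real.log (Facets.gram (fun i => c i * r i * Real.exp (β i)) u).det := by
  refine le_trans ?_ (logdet_gram_ge c r β u hc hu hiso hr₀ hr)
  set D := ∑ i, ∑ j, c i * c j * (r i - 1) * (r j - 1) * (u i ⬝ᵥ u j) ^ 2
  set S := ∑ i, c i * β i ^ 2
  have hD : 0 ≤ D := by
    refine (double_sum_nonneg (fun i => c i * (r i - 1)) u).trans_eq ?_
    exact sum_congr rfl fun i _ => sum_congr rfl fun j _ => by ring
  have hS : 0 ≤ S := sum_nonneg fun i _ => mul_nonneg (hc i) (sq_nonneg _)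
  have h1 := two_mul_le_add_sq (√(l * S)) (√(D / l))
  rw [Real.sq_sqrt (by positivity), Real.sq_sqrt (by positivity)] at h1
  have h2 : √(l * S) * √(D / l) = √S * √D := by
    rw [← Real.sqrt_mul (by positivity), ← Real.sqrt_mul hS]
    congr 1
    field_simp
  rw [mul_assoc, h2] at h1
  have h3 : l * S + D / l = 2 * (l / 2 * S + D / (2 * l)) := by field_simp
  have h4 := mul_le_mul_of_nonneg_left (show √S * √D ≤ l / 2 * S + D / (2 * l) by linarith)
    (div_nonneg hM hr₀.le)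
  rw [← mul_assoc] at h4
  linarith

/-- Integrating a pointwise bound of the shape of `logdet_linear`. -/
lemma mean_abstract {c : Fin N → ℝ} {u : Fin N → Fin n → ℝ} (hc : ∀ i, 0 ≤ c i)
    (hu : ∀ i, u i ⬝ᵥ u i = 1) (hiso : Facets.gram c u = 1)
    {μ : Measure (Fin n → ℝ)} [IsProbabilityMeasure μ] (r β : (Fin n → ℝ) → Fin N → ℝ)
    {g : (Fin n → ℝ) → ℝ} {η M C l ν : ℝ} (G : Fin N → ℝ) (hη : 0 < η) (hM : 0 ≤ M) (hl : 0 < l)
    (hi1 : ∀ i, Integrable (fun x => r x i) μ)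
    (hi2 : ∀ i j, Integrable (fun x => r x i * r x j) μ)
    (hone : ∀ i, ∫ x, r x i ∂μ = 1)
    (hi3 : ∀ i, Integrable (fun x => r x i * β x i) μ) (hG : ∀ i, G i ≤ ∫ x, r x i * β x i ∂μ)
    (hi4 : ∀ i, Integrable (fun x => β x i ^ 2) μ) (hC : ∀ i, ∫ x, β x i ^ 2 ∂μ ≤ C)
    (hν : ∑ i, ∑ j, c i * c j * (u i ⬝ᵥ u j) ^ 2 * |∫ x, r x i * r x j ∂μ - 1| ≤ n * ν)
    (hg : Integrable g μ)
    (hpt : ∀ x, ∑ i, c i * (r x i - 1 + r x i * β x i)
      - (∑ i, ∑ j, c i * c j * (r x i - 1) * (r x j - 1) * (u i ⬝ᵥ u j) ^ 2) / η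
      - M / η * (l / 2 * ∑ i, c i * β x i ^ 2
          + (∑ i, ∑ j, c i * c j * (r x i - 1) * (r x j - 1) * (u i ⬝ᵥ u j) ^ 2) / (2 * l)) ≤ g x) :
    ∑ i, c i * G i - n * ν / η - M / η * (l / 2 * (n * C) + n * ν / (2 * l)) ≤ ∫ x, g x ∂μ := by
  have hi5 : ∀ i j, Integrable (fun x => (r x i - 1) * (r x j - 1)) μ := fun i j => by
    have h := (((hi2 i j).diff (hi1 i)).diff (hi1 j)).fun_add (integrable_const (1 : ℝ))
    exact h.congr (Filter.Eventually.of_forall fun x => by simp only [Pi.add_apply]; ring)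
  have hcov : ∀ i j, ∫ x, (r x i - 1) * (r x j - 1) ∂μ = ∫ x, r x i * r x j ∂μ - 1 := fun i j => by
    rw [show (fun x => (r x i - 1) * (r x j - 1)) = fun x => r x i * r x j - r x i - r x j + 1 from
      funext fun x => by ring, integral_add (((hi2 i j).diff (hi1 i)).diff (hi1 j))
      (integrable_const _), integral_sub ((hi2 i j).diff (hi1 i)) (hi1 j),
      integral_sub (hi2 i j) (hi1 i), hone, hone, integral_const]
    simp
  set D : (Fin n → ℝ) → ℝ := fun x =>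
    ∑ i, ∑ j, c i * c j * (u i ⬝ᵥ u j) ^ 2 * ((r x i - 1) * (r x j - 1)) with hD
  have hDeq : ∀ x, ∑ i, ∑ j, c i * c j * (r x i - 1) * (r x j - 1) * (u i ⬝ᵥ u j) ^ 2 = D x :=
    fun x => sum_congr rfl fun i _ => sum_congr rfl fun j _ => by ring
  set S : (Fin n → ℝ) → ℝ := fun x => ∑ i, c i * β x i ^ 2
  set F : (Fin n → ℝ) → ℝ := fun x => ∑ i, c i * (r x i - 1 + r x i * β x i)
  have hrow : ∀ i, Integrable
      (fun x => ∑ j, c i * c j * (u i ⬝ᵥ u j) ^ 2 * ((r x i - 1) * (r x j - 1))) μ := fun i =>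
    integrable_finsetSum _ fun j _ => (hi5 i j).const_mul _
  have hDi : Integrable D μ := integrable_finsetSum _ fun i _ => hrow i
  have hDe : ∫ x, D x ∂μ ≤ n * ν := by
    rw [integral_finsetSum _ fun i _ => hrow i]
    refine le_trans (sum_le_sum fun i _ => ?_) hν
    rw [integral_finsetSum _ fun j _ => (hi5 i j).const_mul _]
    refine sum_le_sum fun j _ => ?_
    rw [integral_const_mul, hcov]
    exact mul_le_mul_of_nonneg_left (le_abs_self _)
      (mul_nonneg (mul_nonneg (hc i) (hc j)) (sq_nonneg _))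
  have hSi : Integrable S μ := integrable_finsetSum _ fun i _ => (hi4 i).const_mul _
  have hSe : ∫ x, S x ∂μ ≤ n * C := by
    rw [integral_finsetSum _ fun i _ => (hi4 i).const_mul _, ← sum_isotropic_weights hu hiso,
      sum_mul]
    refine sum_le_sum fun i _ => ?_
    rw [integral_const_mul]
    exact mul_le_mul_of_nonneg_left (hC i) (hc i)
  have hterm : ∀ i, Integrable (fun x => r x i - 1 + r x i * β x i) μ := fun i =>
    ((hi1 i).diff (integrable_const _)).fun_add (hi3 i)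
  have hFi : Integrable F μ := integrable_finsetSum _ fun i _ => (hterm i).const_mul _
  have hFe : ∑ i, c i * G i ≤ ∫ x, F x ∂μ := by
    rw [integral_finsetSum _ fun i _ => (hterm i).const_mul _]
    refine sum_le_sum fun i _ => ?_
    rw [integral_const_mul]
    refine mul_le_mul_of_nonneg_left ?_ (hc i)
    rw [integral_add ((hi1 i).diff (integrable_const _)) (hi3 i),
      integral_sub (hi1 i) (integrable_const _), hone, integral_const]
    simpa using hG i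
  have hlin : Integrable (fun x => l / 2 * S x + D x / (2 * l)) μ :=
    (hSi.const_mul _).fun_add (hDi.div_const _)
  have hle := integral_mono ((hFi.diff (hDi.div_const η)).diff (hlin.const_mul (M / η))) hg
    fun x => by
      have h := hpt x
      rwa [hDeq] at h
  rw [integral_sub (hFi.diff (hDi.div_const η)) (hlin.const_mul _),
    integral_sub hFi (hDi.div_const η), integral_div, integral_const_mul,
    integral_add (hSi.const_mul _) (hDi.div_const _), integral_const_mul, integral_div] at hle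
  refine le_trans ?_ hle
  have hMη : 0 ≤ M / η := div_nonneg hM hη.le
  gcongr

/-- Integrating the determinant bound over the Gaussian space. -/
lemma mean_logdet_ge {T η R M C δ : ℝ} (hT : 1 < T) (hη : 0 < η)
    (hA : ∀ (n : ℕ) (u e : Fin n → ℝ), u ⬝ᵥ u = 1 → (e = 0 ∨ e ⬝ᵥ e = 1) →
      (∀ x, η ≤ weight T η R u e x ∧ weight T η R u e x ≤ M) ∧
      Continuous (weight T η R u e) ∧
      ∫ x, weight T η R u e x ∂gauss n = 1 ∧
      Integrable (fun x => weight T η R u e x * logGain T η R u e x) (gauss n) ∧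
      -(Real.log (2 * Real.pi * T)) / 2 - (1 - (u ⬝ᵥ e) ^ 2) / (2 * T) - δ
        ≤ ∫ x, weight T η R u e x * logGain T η R u e x ∂gauss n ∧
      Integrable (fun x => logGain T η R u e x ^ 2) (gauss n) ∧
      ∫ x, logGain T η R u e x ^ 2 ∂gauss n ≤ C)
    {c : Fin N → ℝ} {u e : Fin N → Fin n → ℝ} (hc : ∀ i, 0 ≤ c i) (hu : ∀ i, u i ⬝ᵥ u i = 1)
    (hiso : Facets.gram c u = 1) (he : ∀ i, e i = 0 ∨ e i ⬝ᵥ e i = 1)
    (hb : ∀ i, (u i ⬝ᵥ e i) ^ 2 ≤ 1) {l ν : ℝ} (hl : 0 < l)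
    (hν : ∑ i, ∑ j, c i * c j * (u i ⬝ᵥ u j) ^ 2 *
      |∫ x, weight T η R (u i) (e i) x * weight T η R (u j) (e j) x ∂gauss n - 1| ≤ n * ν) :
    Integrable (fun x => Real.log (Facets.gram
        (fun i => c i * kern T η (u i ⬝ᵥ e i) (x ⬝ᵥ u i)) u).det) (gauss n) ∧
      ∑ i, c i * (-(Real.log (2 * Real.pi * T)) / 2 - (1 - (u i ⬝ᵥ e i) ^ 2) / (2 * T) - δ)
        - n * ν / η - M / η * (l / 2 * (n * C) + n * ν / (2 * l))
      ≤ ∫ x, Real.log (Facets.gram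
          (fun i => c i * kern T η (u i ⬝ᵥ e i) (x ⬝ᵥ u i)) u).det ∂gauss n := by
  have hint := integrable_logdet_kern hT hη hc hu hiso (fun i => u i ⬝ᵥ e i) hb
  refine ⟨hint, ?_⟩
  rcases isEmpty_or_nonempty (Fin N) with hN | ⟨⟨i0⟩⟩
  · have hn : n = 0 := by
      have h := sum_isotropic_weights hu hiso
      rw [univ_eq_empty, sum_empty] at h
      exact_mod_cast h.symm
    subst hn
    simp
  have hM : 0 ≤ M := by
    obtain ⟨h, -⟩ := hA n (u i0) (e i0) (hu i0) (he i0)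
    exact hη.le.trans ((h 0).1.trans (h 0).2)
  have hrb := fun x i => (hA n _ _ (hu i) (he i)).1 x
  have hrc := fun i => (hA n _ _ (hu i) (he i)).2.1
  refine mean_abstract hc hu hiso (fun x i => weight T η R (u i) (e i) x)
    (fun x i => logGain T η R (u i) (e i) x) _ hη hM hl (fun i => ?_) (fun i j => ?_)
    (fun i => (hA n _ _ (hu i) (he i)).2.2.1) (fun i => (hA n _ _ (hu i) (he i)).2.2.2.1)
    (fun i => (hA n _ _ (hu i) (he i)).2.2.2.2.1) (fun i => (hA n _ _ (hu i) (he i)).2.2.2.2.2.1)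
    (fun i => (hA n _ _ (hu i) (he i)).2.2.2.2.2.2) hν hint fun x => ?_
  · exact (integrable_const M).mono' (hrc i).aestronglyMeasurable
      (Filter.Eventually.of_forall fun x => by
        rw [Real.norm_eq_abs, abs_of_nonneg (hη.le.trans (hrb x i).1)]; exact (hrb x i).2)
  · exact (integrable_const (M * M)).mono' ((hrc i).mul (hrc j)).aestronglyMeasurable
      (Filter.Eventually.of_forall fun x => by
        rw [Real.norm_eq_abs, abs_mul, abs_of_nonneg (hη.le.trans (hrb x i).1),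
          abs_of_nonneg (hη.le.trans (hrb x j).1)]
        exact mul_le_mul (hrb x i).2 (hrb x j).2 (hη.le.trans (hrb x j).1) hM)
  · refine (logdet_linear c _ _ u hc hu hiso hη hM hl (hrb x)).trans (le_of_eq ?_)
    congr 3
    funext i
    have hr0 : 0 < weight T η R (u i) (e i) x := hη.trans_le (hrb x i).1
    rw [logGain, Real.exp_log (div_pos ((kern_props hT hη (hb i)).2.1 _) hr0), mul_assoc,
      mul_div_cancel₀ _ hr0.ne']

/-- The residual direction: the unit residual if it is long and nearly orthogonal to the projection,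
otherwise zero. -/
noncomputable def resDir (θ σ : ℝ) (u a : Fin n → ℝ) : Fin n → ℝ :=
  if θ ≤ (u - a) ⬝ᵥ (u - a) ∧ (u - a) ⬝ᵥ a ≤ σ then
    (√((u - a) ⬝ᵥ (u - a)))⁻¹ • (u - a) else 0

lemma sq_dot_le (x y : Fin n → ℝ) : (x ⬝ᵥ y) ^ 2 ≤ (x ⬝ᵥ x) * (y ⬝ᵥ y) := by
  have h := sum_mul_sq_le_sq_mul_sq univ x y
  simpa [dotProduct, sq] using h

lemma resDir_unit {θ σ : ℝ} (hθ : 0 < θ) (u a : Fin n → ℝ) :
    resDir θ σ u a = 0 ∨ resDir θ σ u a ⬝ᵥ resDir θ σ u a = 1 := by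
  unfold resDir
  split_ifs with hg
  · refine Or.inr ?_
    simp only [smul_dotProduct, dotProduct_smul, smul_eq_mul]
    rw [← mul_assoc, ← mul_inv, Real.mul_self_sqrt (dot_self_nonneg _),
      inv_mul_cancel₀ (hθ.trans_le hg.1).ne']
  · exact Or.inl rfl

lemma resDir_sq_le_one {θ σ : ℝ} (hθ : 0 < θ) {u : Fin n → ℝ} (hu : u ⬝ᵥ u = 1) (a : Fin n → ℝ) :
    (u ⬝ᵥ resDir θ σ u a) ^ 2 ≤ 1 := by
  refine (sq_dot_le _ _).trans ?_
  rcases resDir_unit hθ u a with h | h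
  · rw [h, zero_dotProduct, mul_zero]; exact zero_le_one
  · rw [h, hu, one_mul]

lemma resDir_gain {θ σ : ℝ} (hθ : 0 < θ) (hσ : 0 < σ) {u a : Fin n → ℝ}
    (hξ1 : (u - a) ⬝ᵥ (u - a) ≤ 1) (ha : 0 ≤ (u - a) ⬝ᵥ a) :
    (u - a) ⬝ᵥ (u - a) - θ - (u - a) ⬝ᵥ a / σ ≤ (u ⬝ᵥ resDir θ σ u a) ^ 2 := by
  have h0 := dot_self_nonneg (u - a)
  have h1 : 0 ≤ (u - a) ⬝ᵥ a / σ := div_nonneg ha hσ.le
  unfold resDir
  split_ifs with hg
  · have hs : 0 < √((u - a) ⬝ᵥ (u - a)) := Real.sqrt_pos.2 (hθ.trans_le hg.1)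
    have e : u ⬝ᵥ (u - a) = (u - a) ⬝ᵥ (u - a) + (u - a) ⬝ᵥ a := by
      rw [dotProduct_comm, ← dotProduct_add, sub_add_cancel]
    have h2 : (u - a) ⬝ᵥ (u - a) ≤
        (u ⬝ᵥ ((√((u - a) ⬝ᵥ (u - a)))⁻¹ • (u - a))) ^ 2 := by
      rw [dotProduct_smul, smul_eq_mul, mul_pow, inv_pow, Real.sq_sqrt h0, inv_mul_eq_div,
        le_div_iff₀ (hθ.trans_le hg.1), e, ← sq]
      exact pow_le_pow_left₀ h0 (by linarith) 2
    linarith
  · have h2 := sq_nonneg (u ⬝ᵥ (0 : Fin n → ℝ))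
    rcases not_and_or.1 hg with h | h
    · push Not at h
      linarith
    · push Not at h
      have : 1 ≤ (u - a) ⬝ᵥ a / σ := (one_le_div hσ).2 h.le
      linarith

lemma resDir_cross {θ σ : ℝ} (hθ : 0 < θ) (hθ1 : θ ≤ 1) (hσ : 0 < σ) {u a v b : Fin n → ℝ}
    (huv : |(u - a) ⬝ᵥ v| ≤ σ) (hab : |(u - a) ⬝ᵥ b| ≤ (u - a) ⬝ᵥ a) :
    |resDir θ σ u a ⬝ᵥ v| ≤ 2 * σ / θ ∧ |resDir θ σ u a ⬝ᵥ resDir θ σ v b| ≤ 2 * σ / θ := by
  by_cases hg : θ ≤ (u - a) ⬝ᵥ (u - a) ∧ (u - a) ⬝ᵥ a ≤ σ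
  swap
  · simp only [resDir, if_neg hg, zero_dotProduct, abs_zero]
    exact ⟨by positivity, by positivity⟩
  have hs0 : 0 < √((u - a) ⬝ᵥ (u - a)) := Real.sqrt_pos.2 (hθ.trans_le hg.1)
  have hθs : θ ≤ √((u - a) ⬝ᵥ (u - a)) := by
    rw [Real.le_sqrt hθ.le (dot_self_nonneg _)]
    nlinarith [hg.1]
  refine ⟨?_, ?_⟩
  · simp only [resDir, if_pos hg, smul_dotProduct, smul_eq_mul, abs_mul, abs_inv, abs_of_pos hs0]
    rw [inv_mul_eq_div]
    exact div_le_div₀ (by positivity) (by linarith) hθ hθs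
  by_cases hgj : θ ≤ (v - b) ⬝ᵥ (v - b) ∧ (v - b) ⬝ᵥ b ≤ σ
  · have hsj0 : 0 < √((v - b) ⬝ᵥ (v - b)) := Real.sqrt_pos.2 (hθ.trans_le hgj.1)
    have hxx : |(u - a) ⬝ᵥ (v - b)| ≤ 2 * σ := by
      rw [dotProduct_sub]
      refine (abs_sub _ _).trans ?_
      linarith [hg.2]
    simp only [resDir, if_pos hg, if_pos hgj, smul_dotProduct, dotProduct_smul, smul_eq_mul,
      abs_mul, abs_inv, abs_of_pos hs0, abs_of_pos hsj0]
    rw [← mul_assoc, ← mul_inv, inv_mul_eq_div]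
    refine div_le_div₀ (by positivity) hxx hθ ?_
    rw [← Real.mul_self_sqrt hθ.le]
    exact mul_le_mul (Real.sqrt_le_sqrt hgj.1) (Real.sqrt_le_sqrt hg.1) (Real.sqrt_nonneg _)
      (Real.sqrt_nonneg _)
  · simp only [resDir, if_neg hgj, dotProduct_zero, abs_zero]
    positivity

lemma cov_sum_le {c : Fin N → ℝ} {u : Fin N → Fin n → ℝ} (hc : ∀ i, 0 ≤ c i)
    (hu : ∀ i, u i ⬝ᵥ u i = 1) (hiso : Facets.gram c u = 1) (P : Fin N → Fin N → Prop)
    [∀ i j, Decidable (P i j)] (F : Fin N → Fin N → ℝ) {s K X : ℝ} (hK : 0 ≤ K)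
    (hF : ∀ i j, F i j ≤ s + if P i j then K else 0)
    (hX : ∑ i, ∑ j, (if P i j then c i * c j else 0) ≤ X) :
    ∑ i, ∑ j, c i * c j * (u i ⬝ᵥ u j) ^ 2 * F i j ≤ n * s + K * X := by
  calc ∑ i, ∑ j, c i * c j * (u i ⬝ᵥ u j) ^ 2 * F i j
      ≤ ∑ i, ∑ j, (c i * s * (c j * (u j ⬝ᵥ u i) * (u j ⬝ᵥ u i))
          + K * if P i j then c i * c j else 0) := by
        refine sum_le_sum fun i _ => sum_le_sum fun j _ => ?_
        refine (mul_le_mul_of_nonneg_left (hF i j)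
          (mul_nonneg (mul_nonneg (hc i) (hc j)) (sq_nonneg _))).trans ?_
        rw [mul_add, dotProduct_comm (u j) (u i)]
        refine add_le_add (le_of_eq (by ring)) ?_
        split_ifs with h
        · have h1 : (u i ⬝ᵥ u j) ^ 2 ≤ 1 := (sq_dot_le _ _).trans (by rw [hu, hu, one_mul])
          calc c i * c j * (u i ⬝ᵥ u j) ^ 2 * K ≤ c i * c j * 1 * K := mul_le_mul_of_nonneg_right
                (mul_le_mul_of_nonneg_left h1 (mul_nonneg (hc i) (hc j))) hK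
            _ = K * (c i * c j) := by ring
        · simp
    _ = ∑ i, c i * s + K * ∑ i, ∑ j, (if P i j then c i * c j else 0) := by
        simp only [sum_add_distrib, ← mul_sum, sum_isotropic hiso, hu, mul_one]
    _ ≤ n * s + K * X := by
        rw [← sum_mul, sum_isotropic_weights hu hiso]
        exact add_le_add le_rfl (mul_le_mul_of_nonneg_left hX hK)

lemma sum_sqrt_le {c : Fin N → ℝ} (hc : ∀ i, 0 ≤ c i) (g : Fin N → ℝ) (hg : ∀ i, 0 ≤ g i)
    {S : ℝ} (hS : 0 ≤ S) (hsum : ∑ i, c i = S) :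
    ∑ i, c i * √(g i) ≤ S * √((∑ i, c i * g i) / S) := by
  rcases hS.eq_or_lt with h | h
  · subst h
    have hc0 := (sum_eq_zero_iff_of_nonneg fun i _ => hc i).1 hsum
    rw [zero_mul]
    exact le_of_eq (sum_eq_zero fun i hi => by rw [hc0 i hi, zero_mul])
  have h2 := sum_sq_le_sum_mul_sum_of_sq_le_mul univ (r := fun i => c i * √(g i))
    (f := c) (g := fun i => c i * g i) (fun i _ => hc i)
    (fun i _ => mul_nonneg (hc i) (hg i))
    (fun i _ => le_of_eq (by rw [mul_pow, Real.sq_sqrt (hg i)]; ring))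
  rw [hsum] at h2
  have e1 : S * ∑ i, c i * g i = (S * √((∑ i, c i * g i) / S)) ^ 2 := by
    rw [mul_pow, Real.sq_sqrt (div_nonneg (sum_nonneg fun i _ => mul_nonneg (hc i) (hg i)) hS)]
    field_simp
  rw [e1] at h2
  exact (pow_le_pow_iff_left₀ (sum_nonneg fun i _ => mul_nonneg (hc i) (Real.sqrt_nonneg _))
    (by positivity) two_ne_zero).1 h2

lemma sqrt_two_pi_e_pow (n : ℕ) :
    √(2 * π * Real.exp 1) ^ n = Real.exp (n * ((Real.log (2 * π) + 1) / 2)) := by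
  rw [Real.exp_nat_mul]
  congr 1
  rw [Real.sqrt_eq_rpow, Real.rpow_def_of_pos (by positivity),
    Real.log_mul (by positivity) (Real.exp_ne_zero _), Real.log_exp]
  ring_nf

lemma exponent_bound {ε v T Y l2 : ℝ} (m : ℝ) (hm : 0 ≤ m) (hε : 0 < ε) (hv : v ≤ 1)
    (hT : T = 1 + ε / 8) (hl2 : l2 = Real.log (2 * π * T))
    (hY : m * (v - ε / 4) ≤ Y) :
    m * (v / 2 - ε) ≤ m * ((Real.log (2 * π) + 1) / 2)
      + (m * (-l2 / 2 - 1 / (2 * T) - ε / 8) + Y / (2 * T) - m * (ε / 4)) := by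
  have hT0 : 0 < T := by linarith
  have h1 : Real.log T ≤ ε / 8 := by linarith [Real.log_le_sub_one_of_pos hT0]
  have h2 : m * (v - ε / 4) / (2 * T) ≤ Y / (2 * T) :=
    div_le_div_of_nonneg_right hY (by linarith)
  have h3 : (v - 1 - ε / 4) / 2 ≤ (v - 1 - ε / 4) / (2 * T) := by
    rw [le_div_iff₀ (by linarith)]
    nlinarith
  have h4 : l2 = Real.log (2 * π) + Real.log T := by
    rw [hl2, Real.log_mul (by positivity) hT0.ne']
  have h5 : v / 2 - ε ≤ 1 / 2 - Real.log T / 2 - ε / 8 + (v - 1 - ε / 4) / (2 * T) - ε / 4 := by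
    linarith
  have h6 := mul_le_mul_of_nonneg_left h5 hm
  have e : m * (1 / 2 - Real.log T / 2 - ε / 8 + (v - 1 - ε / 4) / (2 * T) - ε / 4)
      = m * ((Real.log (2 * π) + 1) / 2) + (m * (-l2 / 2 - 1 / (2 * T) - ε / 8)
        + m * (v - ε / 4) / (2 * T) - m * (ε / 4)) := by rw [h4]; ring
  linarith

lemma error_bound {ε η M C l κ ν x : ℝ} (hx : 0 ≤ x) (hε : 0 < ε) (hη : 0 < η) (hM : 1 ≤ M)
    (hC : 0 ≤ C) (hl : l = ε * η / (4 * M * (C + 1))) (hκ : κ = 1 / η + M / η / (2 * l))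
    (hν : ν = ε / (8 * κ)) :
    x * ν / η + M / η * (l / 2 * (x * C) + x * ν / (2 * l)) ≤ x * (ε / 4) := by
  have hl0 : 0 < l := by rw [hl]; positivity
  have hκ0 : 0 < κ := by rw [hκ]; positivity
  have h1 : x * ν / η + M / η * (x * ν / (2 * l)) = x * (ν * κ) := by rw [hκ]; ring
  have h2 : ν * κ = ε / 8 := by rw [hν]; field_simp
  have h3 : M / η * (l / 2 * (x * C)) = x * (ε / 8) * (C / (C + 1)) := by
    rw [hl]; field_simp; ring
  have h4 : x * (ε / 8) * (C / (C + 1)) ≤ x * (ε / 8) :=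
    mul_le_of_le_one_right (by positivity) ((div_le_one (by positivity)).2 (by linarith))
  rw [h2] at h1
  linarith

lemma exists_size {ε ν σ M : ℝ} (hε : 0 < ε) (hν : 0 < ν) (hσ : 0 < σ) :
    ∃ m : ℕ, 1 ≤ m ∧ (M * M + 1) * (8 / (m * σ ^ 4)) ≤ ν / 2 ∧ 4 / (m * σ) ≤ ε / 8 := by
  have hK : 0 ≤ M * M + 1 := by nlinarith [mul_self_nonneg M]
  obtain ⟨m, hm⟩ := exists_nat_ge (16 * (M * M + 1) / (ν * σ ^ 4) + 32 / (ε * σ) + 1)
  have h1 : 0 ≤ 16 * (M * M + 1) / (ν * σ ^ 4) := by positivity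
  have h2 : 0 ≤ 32 / (ε * σ) := by positivity
  have hm0 : (0 : ℝ) < m := by linarith
  refine ⟨m, by exact_mod_cast (show (1 : ℝ) ≤ m by linarith), ?_, ?_⟩
  · have h : 16 * (M * M + 1) / (ν * σ ^ 4) ≤ m := by linarith
    rw [div_le_iff₀ (by positivity)] at h
    rw [mul_div_assoc', div_le_iff₀ (by positivity)]
    nlinarith
  · have h : 32 / (ε * σ) ≤ m := by linarith
    rw [div_le_iff₀ (by positivity)] at h
    rw [div_le_iff₀ (by positivity)]
    nlinarith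

lemma exists_dim {ω : ℝ} (hω : 0 < ω) (K : ℝ) :
    ∃ n₀ : ℕ, ∀ n ≥ n₀, (n : ℝ) * √(1 - ω ^ 2) ^ n * K ≤ 1 / 4 := by
  have hr : √(1 - ω ^ 2) < 1 := (Real.sqrt_lt' one_pos).2 (by nlinarith)
  have h := (tendsto_self_mul_const_pow_of_lt_one (Real.sqrt_nonneg _) hr).mul_const K
  rw [zero_mul] at h
  exact Filter.eventually_atTop.1 (h.eventually_le_const (by norm_num))

lemma pair_bound {T η R M C θ σ ν : ℝ} (hT : 0 < T) (hη : 0 < η) (hM : 0 ≤ M) (hν : 0 ≤ ν)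
    (hθ : 0 < θ) (hθ1 : θ ≤ 1) (hσ : 0 < σ) (hCσ : C * (2 * σ / θ) ≤ ν)
    (hB : ∀ (n : ℕ) (u e v f : Fin n → ℝ) (σ : ℝ), u ⬝ᵥ u = 1 → v ⬝ᵥ v = 1 →
      (e = 0 ∨ e ⬝ᵥ e = 1) → (f = 0 ∨ f ⬝ᵥ f = 1) → |e ⬝ᵥ v| ≤ σ → |e ⬝ᵥ f| ≤ σ →
      |∫ x, weight T η R u e x * weight T η R v f x ∂gauss n - 1| ≤ C * σ)
    {u v a b : Fin n → ℝ} (hu : u ⬝ᵥ u = 1) (hv : v ⬝ᵥ v = 1)
    (hab : |(u - a) ⬝ᵥ b| ≤ (u - a) ⬝ᵥ a)
    (h1 : ∀ x, η ≤ weight T η R u (resDir θ σ u a) x ∧ weight T η R u (resDir θ σ u a) x ≤ M)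
    (h2 : ∀ x, η ≤ weight T η R v (resDir θ σ v b) x ∧ weight T η R v (resDir θ σ v b) x ≤ M) :
    |∫ x, weight T η R u (resDir θ σ u a) x * weight T η R v (resDir θ σ v b) x ∂gauss n - 1|
      ≤ ν + if σ < |(u - a) ⬝ᵥ v| then M * M + 1 else 0 := by
  split_ifs with hbad
  · have h3 : ‖∫ x, weight T η R u (resDir θ σ u a) x * weight T η R v (resDir θ σ v b) x ∂gauss n‖
        ≤ M * M := by
      refine (norm_integral_le_of_norm_le_const (C := M * M) (Filter.Eventually.of_forall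
        fun x => ?_)).trans (le_of_eq (by simp))
      rw [Real.norm_eq_abs, abs_mul, abs_of_nonneg (hη.le.trans (h1 x).1),
        abs_of_nonneg (hη.le.trans (h2 x).1)]
      exact mul_le_mul (h1 x).2 (h2 x).2 (hη.le.trans (h2 x).1) hM
    rw [Real.norm_eq_abs] at h3
    refine (abs_sub _ _).trans ?_
    rw [abs_one]
    linarith
  · rw [add_zero]
    push Not at hbad
    obtain ⟨hev, hef⟩ := resDir_cross hθ hθ1 hσ hbad hab
    exact (hB n _ _ _ _ _ hu hv (resDir_unit hθ u a) (resDir_unit hθ v b) hev hef).trans hCσ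

/-- A lower bound for the zonotope and a test body, tied by the mean squared residual. -/
theorem zono_test_body {ε : ℝ} (hε : 0 < ε) :
    ∃ n₀ : ℕ, ∀ n ≥ n₀, ∀ (N : ℕ) (c : Fin N → ℝ) (u : Fin N → Fin n → ℝ),
      (∀ i, 0 ≤ c i) → (∀ i, u i ⬝ᵥ u i = 1) → Facets.gram c u = 1 →
      ∃ (Q : Set (Fin n → ℝ)) (q : Fin N → ℝ) (v : ℝ),
        0 ≤ v ∧ v ≤ 1 ∧ Q ⊆ {x | x ⬝ᵥ x ≤ 1} ∧ MeasurableSet Q ∧
        ENNReal.ofReal (3 / 4) * volume {x : Fin n → ℝ | x ⬝ᵥ x ≤ 1} ≤ volume Q ∧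
        (∀ i, 0 < q i) ∧ (∀ y ∈ Q, ∀ i, y ⬝ᵥ u i ≤ q i) ∧
        ∑ i, c i * q i ≤ n * (√v + ε) ∧
        ENNReal.ofReal (Real.exp (n * (v / 2 - ε))) ≤ volume (zono (fun i => c i / 2) u) := by
  wlog hε1 : ε ≤ 1 generalizing ε with h
  · obtain ⟨n₀, hn₀⟩ := h one_pos le_rfl
    refine ⟨n₀, fun n hn N c u hc hu hiso => ?_⟩
    obtain ⟨Q, q, v, h1, h2, h3, h4, h5, h6, h7, h8, h9⟩ := hn₀ n hn N c u hc hu hiso
    refine ⟨Q, q, v, h1, h2, h3, h4, h5, h6, h7, h8.trans ?_, le_trans ?_ h9⟩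
    · gcongr; linarith
    · exact ENNReal.ofReal_le_ofReal (Real.exp_le_exp.2 (by gcongr; linarith))
  have hT : 1 < 1 + ε / 8 := by linarith
  obtain ⟨η, R, M, C, hη, -, -, hM, hC, hA, hB⟩ := kernel_bounds hT (δ := ε / 8) (by linarith)
  obtain ⟨l, hl⟩ : ∃ l, l = ε * η / (4 * M * (C + 1)) := ⟨_, rfl⟩
  obtain ⟨κ, hκ⟩ : ∃ κ, κ = 1 / η + M / η / (2 * l) := ⟨_, rfl⟩
  obtain ⟨ν, hν⟩ : ∃ ν, ν = ε / (8 * κ) := ⟨_, rfl⟩
  have hl0 : 0 < l := by rw [hl]; positivity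
  have hκ0 : 0 < κ := by rw [hκ]; positivity
  have hν0 : 0 < ν := by rw [hν]; positivity
  obtain ⟨θ, hθd⟩ : ∃ θ, θ = ε / 8 := ⟨_, rfl⟩
  have hθ : 0 < θ := by linarith
  obtain ⟨σ, hσd⟩ : ∃ σ, σ = min 1 (ν * θ / (4 * (C + 1))) := ⟨_, rfl⟩
  have hσ : 0 < σ := hσd ▸ lt_min one_pos (by positivity)
  have hσ1 : σ ≤ 1 := hσd ▸ min_le_left _ _
  have hCσ : C * (2 * σ / θ) ≤ ν / 2 := by
    have h1 : σ * (4 * (C + 1)) ≤ ν * θ :=
      (le_div_iff₀ (by positivity)).1 (hσd ▸ min_le_right _ _)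
    rw [mul_div_assoc', div_le_iff₀ hθ]
    nlinarith
  obtain ⟨m, hm1, hm2, hm3⟩ := exists_size (M := M) hε hν0 hσ
  obtain ⟨ω, hωd⟩ : ∃ ω, ω = ε / (2 * 2 ^ (m + 2) : ℝ) := ⟨_, rfl⟩
  have hΛ : (1 : ℝ) ≤ 2 ^ (m + 2) := one_le_pow₀ one_le_two
  have hω : 0 < ω := by rw [hωd]; positivity
  have hω1 : ω ≤ 1 := by rw [hωd, div_le_one (by positivity)]; linarith
  obtain ⟨n₀, hn₀⟩ := exists_dim hω (2 * ((m : ℝ) + 1))
  refine ⟨max n₀ 1, fun n hn N c u hc hu hiso => ?_⟩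
  have hn1 : 1 ≤ n := le_trans (le_max_right _ _) hn
  have hn0 : (0 : ℝ) < n := by exact_mod_cast hn1
  have hcsum := sum_isotropic_weights hu hiso
  obtain ⟨B, L, a, hL, hLΛ, hBcard, hBunit, haB, hξ1, hproj, hsum1, hsum2⟩ :=
    exists_regular hn1 c u hc hu hiso hσ hσ1 hm1
  set v : ℝ := (∑ i, c i * ((u i - a i) ⬝ᵥ (u i - a i))) / n with hvdef
  have hξ0 : ∀ i, 0 ≤ (u i - a i) ⬝ᵥ (u i - a i) := fun i => dot_self_nonneg _
  have hv0 : 0 ≤ v := div_nonneg (sum_nonneg fun i _ => mul_nonneg (hc i) (hξ0 i)) hn0.le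
  have hv1 : v ≤ 1 := by
    rw [hvdef, div_le_one hn0, ← hcsum]
    exact sum_le_sum fun i _ => mul_le_of_le_one_right (hc i) (hξ1 i)
  have hξa : ∀ i, 0 ≤ (u i - a i) ⬝ᵥ a i := fun i => (abs_nonneg _).trans (hproj i _ (haB i))
  obtain ⟨e, hed⟩ : ∃ e : Fin N → Fin n → ℝ, ∀ i, e i = resDir θ σ (u i) (a i) := ⟨_, fun _ => rfl⟩
  have he : ∀ i, e i = 0 ∨ e i ⬝ᵥ e i = 1 := fun i => hed i ▸ resDir_unit hθ _ _
  have hb : ∀ i, (u i ⬝ᵥ e i) ^ 2 ≤ 1 := fun i => hed i ▸ resDir_sq_le_one hθ (hu i) _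
  have hcov : ∑ i, ∑ j, c i * c j * (u i ⬝ᵥ u j) ^ 2 *
      |∫ x, weight (1 + ε / 8) η R (u i) (e i) x * weight (1 + ε / 8) η R (u j) (e j) x ∂gauss n - 1|
      ≤ n * ν := by
    refine (cov_sum_le hc hu hiso (fun i j => σ < |(u i - a i) ⬝ᵥ u j|) _ (s := ν / 2)
      (K := M * M + 1) (by positivity) (fun i j => ?_) hsum2).trans ?_
    · rw [hed, hed]
      exact pair_bound (by linarith) hη (by linarith) (by linarith) hθ (by linarith) hσ hCσ hB
        (hu i) (hu j) (hproj i _ (haB j)) (hA n _ _ (hu i) (resDir_unit hθ _ _)).1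
        (hA n _ _ (hu j) (resDir_unit hθ _ _)).1
    · have h := mul_le_mul_of_nonneg_left hm2 hn0.le
      linarith [show (M * M + 1) * ((n : ℝ) * (8 / (m * σ ^ 4)))
        = n * ((M * M + 1) * (8 / (m * σ ^ 4))) by ring]
  obtain ⟨hint, hmean⟩ := mean_logdet_ge hT hη hA hc hu hiso he hb hl0 hcov
  have hvol := zono_volume_ge_entropy c u hc hiso (fun i => kern (1 + ε / 8) η (u i ⬝ᵥ e i))
    (fun i => (kern_props hT hη (hb i)).1) (fun i => (kern_props hT hη (hb i)).2.1)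
    (fun i => (kern_props hT hη (hb i)).2.2.1) (fun i => (kern_props hT hη (hb i)).2.2.2) hint
  refine ⟨slabBody ω B, fun i => √((u i - a i) ⬝ᵥ (u i - a i)) + L * ω, v, hv0, hv1,
    fun x hx => hx.1, (slabBody_body hω B).2.1.measurableSet, ?_, fun i => ?_, fun y hy i => ?_,
    ?_, ?_⟩
  · refine le_trans ?_ (slabBody_volume hn1 hω.le hω1 B hBunit)
    gcongr
    have hcard : (B.card : ℝ) ≤ (m + 1) * n := by exact_mod_cast hBcard
    have hp : 0 ≤ √(1 - ω ^ 2) ^ n := pow_nonneg (Real.sqrt_nonneg _) n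
    have h := hn₀ n (le_trans (le_max_left _ _) hn)
    linarith [mul_le_mul_of_nonneg_right hcard hp,
      show (n : ℝ) * √(1 - ω ^ 2) ^ n * (2 * (m + 1)) = 2 * ((m + 1) * n * √(1 - ω ^ 2) ^ n) by ring,
      show 2 * (B.card : ℝ) * √(1 - ω ^ 2) ^ n = 2 * ((B.card : ℝ) * √(1 - ω ^ 2) ^ n) by ring]
  · have := Real.sqrt_nonneg ((u i - a i) ⬝ᵥ (u i - a i))
    have := mul_pos (one_pos.trans_le hL) hω
    linarith
  · have h := dot_le_slab hω.le hy (ξ := u i - a i) (haB i)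
    rwa [add_sub_cancel] at h
  · have hcs := sum_sqrt_le hc _ hξ0 hn0.le hcsum
    rw [← hvdef] at hcs
    have hLω : L * ω ≤ ε := by
      calc L * ω ≤ 2 ^ (m + 2) * ω := mul_le_mul_of_nonneg_right hLΛ hω.le
        _ = ε / 2 := by rw [hωd]; field_simp
        _ ≤ ε := by linarith
    calc ∑ i, c i * (√((u i - a i) ⬝ᵥ (u i - a i)) + L * ω)
        = ∑ i, c i * √((u i - a i) ⬝ᵥ (u i - a i)) + n * (L * ω) := by
          simp only [mul_add, sum_add_distrib, ← sum_mul, hcsum]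
      _ ≤ n * √v + n * ε := add_le_add hcs (mul_le_mul_of_nonneg_left hLω hn0.le)
      _ = n * (√v + ε) := by ring
  · refine le_trans (ENNReal.ofReal_le_ofReal ?_) hvol
    rw [sqrt_two_pi_e_pow, ← Real.exp_add, Real.exp_le_exp]
    refine le_trans ?_ (add_le_add le_rfl hmean)
    have hb2 : n * (v - ε / 4) ≤ ∑ i, c i * (u i ⬝ᵥ e i) ^ 2 := by
      have hs : ∑ i, c i * ((u i - a i) ⬝ᵥ (u i - a i) - θ - (u i - a i) ⬝ᵥ a i / σ)
          ≤ ∑ i, c i * (u i ⬝ᵥ e i) ^ 2 := sum_le_sum fun i _ => by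
        rw [hed]
        exact mul_le_mul_of_nonneg_left (resDir_gain hθ hσ (hξ1 i) (hξa i)) (hc i)
      simp only [mul_sub, sum_sub_distrib, mul_div_assoc', ← sum_div, ← sum_mul, hcsum] at hs
      have h4 : (∑ i, c i * ((u i - a i) ⬝ᵥ a i)) / σ ≤ n * (ε / 8) := by
        rw [div_le_iff₀ hσ]
        calc ∑ i, c i * ((u i - a i) ⬝ᵥ a i) ≤ n * (4 / m) := hsum1
          _ = n * (4 / (m * σ)) * σ := by field_simp
          _ ≤ n * (ε / 8) * σ := by gcongr
      have h5 : ∑ i, c i * ((u i - a i) ⬝ᵥ (u i - a i)) = n * v := by rw [hvdef]; field_simp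
      rw [hθd] at hs
      linarith
    have hG : ∑ i, c i * (-(Real.log (2 * π * (1 + ε / 8))) / 2
          - (1 - (u i ⬝ᵥ e i) ^ 2) / (2 * (1 + ε / 8)) - ε / 8)
        = n * (-(Real.log (2 * π * (1 + ε / 8))) / 2 - 1 / (2 * (1 + ε / 8)) - ε / 8)
          + (∑ i, c i * (u i ⬝ᵥ e i) ^ 2) / (2 * (1 + ε / 8)) := by
      rw [← hcsum, sum_mul, sum_div, ← sum_add_distrib]
      exact sum_congr rfl fun i _ => by ring
    rw [hG]
    have herr := error_bound hn0.le hε hη hM hC hl hκ hν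
    have hexp := exponent_bound (n : ℝ) hn0.le hε hv1 rfl rfl hb2
    linarith

end Vale.Agent.P237.Asym
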